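import Vale.Agent.P168.Fin.ASS.Step

/-!
P168: measurability in the strengths, and the cost of the perturbation.
-/

namespace Vale.Agent.P168.ASS

open MeasureTheory ProbabilityTheory Finset

variable {K M N : ℕ} {B0 lam : ℝ} {μ : Measure (Table K)} {η : Measure ℝ}
  [IsProbabilityMeasure μ] [IsProbabilityMeasure η]

instance isProbabilityMeasure_boxLaw (M : ℕ) : IsProbabilityMeasure (boxLaw M) := by
  have : IsProbabilityMeasure ((volume : Measure ℝ).restrict (Set.Icc 1 2)) :=
    ⟨by rw [Measure.restrict_apply_univ, Real.volume_Icc]; norm_num⟩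
  unfold boxLaw; infer_instance

lemma ae_box (M : ℕ) : ∀ᵐ x ∂boxLaw M, ∀ b, |x b| ≤ 2 := by
  have : IsProbabilityMeasure ((volume : Measure ℝ).restrict (Set.Icc 1 2)) :=
    ⟨by rw [Measure.restrict_apply_univ, Real.volume_Icc]; norm_num⟩
  unfold boxLaw
  refine ae_all_iff.2 fun b => (Measure.tendsto_eval_ae_ae
    (μ := fun _ : ParIdx M => (volume : Measure ℝ).restrict (Set.Icc 1 2)) (i := b)).eventually
    (p := fun t : ℝ => |t| ≤ 2) ?_
  filter_upwards [ae_restrict_mem measurableSet_Icc] with t ht
  exact abs_le.2 ⟨by linarith [ht.1], ht.2⟩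

variable [NeZero N]

lemma measurable_press (c : ℝ) :
    Measurable fun x : Par M => press (K := K) μ η N c x := by
  have := isProbabilityMeasure_pp (lawWith M N c μ : Measure (Mark K M N))
  exact ((measurable_avgLz_prod (π := Measure.pi fun _ : Fin N => η) (pot := markPot (K := K))
    measurable_markPot measurable_field).stronglyMeasurable.integral_prod_right').measurable

lemma measurable_siteVal [NeZero K] (lam : ℝ) :
    Measurable fun x : Par M => siteVal lam μ η N x := by
  have : IsFiniteMeasure (markLaw M N lam μ : Measure (Mark K M N)) := by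
    rw [markLaw_eq lam μ]; infer_instance
  have : IsFiniteMeasure (ENNReal.ofReal ((K : ℝ) * lam) • siteLaw K N μ) :=
    isFiniteMeasure_smul_ofReal _ _
  have : IsFiniteMeasure (joinLaw (M := M) (N := N) lam μ (K * lam) (siteLaw K N μ)) := by
    unfold joinLaw; infer_instance
  have := isProbabilityMeasure_pp (joinLaw (M := M) (N := N) lam μ (K * lam) (siteLaw K N μ))
  refine ((measurable_avgLz_prod (π := (Measure.pi fun _ : Fin N => η).prod η)
    (pot := fun x : Par M => joinPot (markPot (K := K) (N := N) x) sitePot) (fun s => ?_) fun s => ?_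
    ).stronglyMeasurable.integral_prod_right').measurable
  · exact measurable_prod_sum (measurable_markPot s.1) ((measurable_sitePot s).comp measurable_snd)
  · exact ((measurable_field s.1).comp measurable_fst).add (measurable_snd.mul_const _)

/-- The cost of the perturbation. -/
lemma abs_press_sub_pressure (hl : 0 ≤ lam) (hb : BoundedModel B0 μ η) {x : Par M}
    (hx : ∀ b, |x b| ≤ 2) :
    |press μ η N (lam * N) x - (N : ℝ) * pressure lam μ η N| ≤ sN N * pertSize M := by
  have hN0 : (N : ℝ) ≠ 0 := Nat.cast_ne_zero.2 (NeZero.ne N)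
  set ν0 : Measure (Mark K M N) := ENNReal.ofReal (lam * N) • mainLaw K M N μ
  set νR : Measure (Mark K M N) := ∑ i : Fin M, ENNReal.ofReal (sN N) • pertLaw K N i
  have : IsFiniteMeasure ν0 := isFiniteMeasure_smul_ofReal _ _
  have : IsFiniteMeasure νR :=
    isFiniteMeasure_sum univ (fun i => ENNReal.ofReal (sN N) • pertLaw K N i) fun i =>
      isFiniteMeasure_smul_ofReal _ _
  have hi0 : Integrable markBd ν0 :=
    (integrable_markBd_main hb).smul_measure ENNReal.ofReal_ne_top
  have hiR : Integrable markBd νR := integrable_finsetSum_measure.2 fun i _ =>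
    (integrable_markBd_pert i).smul_measure ENNReal.ofReal_ne_top
  have hR : ∫ c, markBd c ∂νR = sN N * pertSize M := by
    rw [integral_finsetSum_measure fun i _ =>
      (integrable_markBd_pert i).smul_measure ENNReal.ofReal_ne_top, pertSize, mul_sum]
    refine sum_congr rfl fun i _ => ?_
    rw [integral_smul_measure, ENNReal.toReal_ofReal (show 0 ≤ sN N from Real.rpow_nonneg N.cast_nonneg _),
      integral_markBd_pert, smul_eq_mul]
  have hF := measurable_avgLz (π := Measure.pi fun _ : Fin N => η)
    (measurable_markPot' (K := K) (N := N) x) measurable_field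
  have h := abs_sub_le_coupling ν0 νR hF avgLz_symm hi0 hiR
    (avgLz_incr (abs_markPot_le hx) measurable_field (ae_field_le hb.2))
  rw [hR] at h
  refine le_trans (le_of_eq ?_) h
  congr 1
  refine congrArg₂ (· - ·) rfl ?_
  let g : EdgeMark K N → Mark K M N := Sum.inl
  have hg : Measurable g := measurable_mainInj
  have : IsFiniteMeasure (ENNReal.ofReal (lam * N) • μ.prod (sites N K)) :=
    isFiniteMeasure_smul_ofReal _ _
  have e0 : ν0 = (ENNReal.ofReal (lam * N) • μ.prod (sites N K)).map g :=
    (Measure.map_smul _ _ _).symm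
  have hi : Integrable (fun a => avgLz (markPot x) field (Measure.pi fun _ : Fin N => η) (cmap g a))
      (pp (ENNReal.ofReal (lam * N) • μ.prod (sites N K))) := by
    have h1 := integrable_avgLz (π := Measure.pi fun _ : Fin N => η) (ν := ν0)
      (measurable_markPot' x) (abs_markPot_le hx) measurable_field (ae_field_le hb.2) hi0
    rw [e0, pp_map _ hg] at h1
    exact h1.comp_measurable (measurable_cmap hg)
  rw [e0, pp_map _ hg, integral_map (measurable_cmap hg).aemeasurable hF.aestronglyMeasurable,
    integral_pp_smul _ (by positivity) hi, pressure, ← mul_assoc, mul_one_div_cancel hN0, one_mul]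
  rfl

end Vale.Agent.P168.ASS
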