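import Vale.Agent.P168.Fin.ASS.Moments

/-!
P168: the cavity functional at a stage as a difference of two mean log-partition functions.
-/

namespace Vale.Agent.P168.ASS

open MeasureTheory ProbabilityTheory Finset

variable {K M N : ℕ}

/-- Clauses with their sites gathered. -/
def gather {α : Type} {c : ℕ} (q : (Fin c → α) × (Fin (c * K) → Fin N)) :
    Fin c → α × (Fin K → Fin N) :=
  fun k => (q.1 k, fun j => q.2 (finProdFinEquiv (k, j)))

lemma measurePreserving_gather {α : Type} [MeasurableSpace α] (ρ : Measure α) [IsProbabilityMeasure ρ]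
    [NeZero N] (c : ℕ) :
    MeasurePreserving (gather (K := K) (N := N))
      ((Measure.pi fun _ : Fin c => ρ).prod (sites N (c * K)))
      (Measure.pi fun _ : Fin c => ρ.prod (sites N K)) := by
  have hf : MeasurePreserving (fun F : Fin (c * K) → Fin N => fun (k : Fin c) (j : Fin K) =>
      F (finProdFinEquiv (k, j))) (sites N (c * K)) (Measure.pi fun _ : Fin c => sites N K) := by
    refine ⟨measurable_pi_lambda _ fun k => measurable_pi_lambda _ fun j => measurable_pi_apply _,
      Measure.ext_of_singleton fun G => ?_⟩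
    rw [Measure.map_apply Measurable.of_discrete (measurableSet_singleton _)]
    have e : (fun (F : Fin (c * K) → Fin N) (k : Fin c) (j : Fin K) => F (finProdFinEquiv (k, j))) ⁻¹'
        {G} = {fun i => G (finProdFinEquiv.symm i).1 (finProdFinEquiv.symm i).2} := by
      ext F
      simp only [Set.mem_preimage, Set.mem_singleton_iff]
      constructor
      · rintro rfl
        funext i
        exact (congrArg F (finProdFinEquiv.apply_symm_apply i)).symm
      · rintro rfl
        funext k j
        simp
    rw [e]
    simp only [Measure.pi_singleton]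
    rw [← Equiv.prod_comp finProdFinEquiv, Fintype.prod_prod_type]
    simp
  have h1 := (MeasurePreserving.id (Measure.pi fun _ : Fin c => ρ)).prod hf
  have h2 := (measurePreserving_arrowProdEquivProdArrow α (Fin K → Fin N) (Fin c) (fun _ => ρ)
    (fun _ => sites N K)).symm
      (MeasurableEquiv.arrowProdEquivProdArrow α (Fin K → Fin N) (Fin c))
  exact h2.comp h1

/-- A clause at a cavity site. -/
abbrev SiteMark (K N : ℕ) := (Table K × Fin K) × (Fin K → Fin N)

/-- A cavity clause on the old sites. -/
abbrev EdgeMark (K N : ℕ) := Table K × (Fin K → Fin N)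

/-- The law of a clause at a cavity site. -/
noncomputable abbrev siteLaw (K N : ℕ) (μ : Measure (Table K)) : Measure (SiteMark K N) :=
  (μ.prod (unif K)).prod (sites N K)

/-- The potential of a clause at a cavity site. -/
def sitePot (c : SiteMark K N) (s : Conf N × Bool) : ℝ :=
  c.1.1 (Function.update (fun j => s.1 (c.2 j)) c.1.2 s.2)

/-- The base of the cavity spin. -/
def siteBase (h : ℝ) (ε : Bool) : ℝ := h * spin ε

/-- The potential of a cavity clause. -/
def edgePot (c : EdgeMark K N) (s : Conf N × Unit) : ℝ := c.1 fun j => s.1 (c.2 j)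

/-- The mean log-partition function with a cavity site. -/
noncomputable def siteVal (lam : ℝ) (μ : Measure (Table K)) (η : Measure ℝ) (N : ℕ) (x : Par M) :
    ℝ :=
  ∫ a, avgLz (joinPot (markPot x) sitePot) (joinBase siteBase)
    ((Measure.pi fun _ : Fin N => η).prod η) a ∂pp (joinLaw lam μ (K * lam) (siteLaw K N μ))

/-- The mean log-partition function with cavity clauses. -/
noncomputable def edgeVal (lam : ℝ) (μ : Measure (Table K)) (η : Measure ℝ) (N : ℕ) (x : Par M) :
    ℝ :=
  press μ η N (mainMean lam K N + ((K : ℝ) - 1) * lam) x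

lemma measurable_table_apply (σ : Conf N) :
    Measurable fun c : EdgeMark K N => c.1 fun j => σ (c.2 j) :=
  measurable_from_prod_countable_left fun I => measurable_pi_apply (fun j => σ (I j))

lemma measurable_sitePot (s : Conf N × Bool) : Measurable fun c : SiteMark K N => sitePot c s :=
  measurable_from_prod_countable_left fun I =>
    measurable_from_prod_countable_left fun l =>
      measurable_pi_apply (Function.update (fun j => s.1 (I j)) l s.2)

variable [NeZero N] {B0 lam : ℝ} {μ : Measure (Table K)} {η : Measure ℝ}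
  [IsProbabilityMeasure μ] [IsProbabilityMeasure η]

/-- Integrals over gathered clauses of a dominated function. -/
lemma integral_gather {α He Ω : Type} [MeasurableSpace α] [MeasurableSpace He] [MeasurableSpace Ω]
    {ρ : Measure α} [IsProbabilityMeasure ρ] {πe : Measure He} [IsProbabilityMeasure πe]
    {D : Measure Ω} [IsProbabilityMeasure D] (c : ℕ)
    (f : (Fin c → α × (Fin K → Fin N)) → He → Ω → ℝ)
    (hf : Measurable fun q : ((Fin c → α × (Fin K → Fin N)) × He) × Ω => f q.1.1 q.1.2 q.2)
    (b : (Fin c → α × (Fin K → Fin N)) → ℝ) (b' : He → ℝ)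
    (hb : Integrable b (Measure.pi fun _ : Fin c => ρ.prod (sites N K))) (hb' : Integrable b' πe)
    (hfb : ∀ v he ω, |f v he ω| ≤ b v + b' he) :
    ∫ he, ∫ cl, ∫ ω, ∫ F, f (gather (cl, F)) he ω ∂sites N (c * K)
        ∂D ∂(Measure.pi fun _ : Fin c => ρ) ∂πe =
      ∫ v, ∫ he, ∫ ω, f v he ω ∂D ∂πe ∂Measure.pi fun _ : Fin c => ρ.prod (sites N K) := by
  set P := Measure.pi fun _ : Fin c => ρ.prod (sites N K)
  have hfω : ∀ v he, Integrable (fun ω => f v he ω) D := fun v he =>
    (integrable_const (b v + b' he)).mono' (hf.comp (measurable_prodMk_left (x := (v, he)))).aestronglyMeasurable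
      (ae_of_all _ fun ω => hfb v he ω)
  let T : (Fin c → α × (Fin K → Fin N)) × He → ℝ := fun q => ∫ ω, f q.1 q.2 ω ∂D
  have hTm : Measurable T := hf.stronglyMeasurable.integral_prod_right'.measurable
  have hT : ∀ v he, |T (v, he)| ≤ b v + b' he := fun v he => by
    have h : ∀ᵐ ω ∂D, ‖f v he ω‖ ≤ b v + b' he := ae_of_all _ fun ω => hfb v he ω
    simpa [T] using norm_integral_le_of_norm_le_const h
  have hTi : Integrable T (P.prod πe) :=
    ((hb.comp_fst πe).add (hb'.comp_snd P)).mono'
      hTm.aestronglyMeasurable (ae_of_all _ fun q => hT q.1 q.2)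
  have hmp := measurePreserving_gather (K := K) (N := N) ρ c
  show _ = ∫ v, ∫ he, T (v, he) ∂πe ∂P
  rw [integral_integral_swap (f := fun v he => T (v, he)) hTi]
  refine integral_congr_ae (ae_of_all _ fun he => ?_)
  have hTv : Integrable (fun v => T (v, he)) P :=
    (hb.add (integrable_const (b' he))).mono'
      (hTm.comp measurable_prodMk_right).aestronglyMeasurable (ae_of_all _ fun v => hT v he)
  have hTq := hmp.integrable_comp_of_integrable hTv
  refine Eq.trans ?_ ((integral_prod _ hTq).symm.trans
    ((integral_map hmp.measurable.aemeasurable (by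
      rw [hmp.map_eq]; exact hTv.aestronglyMeasurable)).symm.trans (by rw [hmp.map_eq])))
  refine integral_congr_ae (ae_of_all _ fun cl => ?_)
  simp only [T, Function.comp_apply, integral_fintype Integrable.of_finite, smul_eq_mul]
  rw [integral_finsetSum _ fun F _ => (hfω _ _).const_mul _]
  simp only [integral_const_mul]

/-- The terms of the cavity functional in the order of integration of the gap. -/
lemma gain_swap {α He E : Type} [MeasurableSpace α] [MeasurableSpace He] [Fintype E] [Nonempty E]
    {ρ : Measure α} [IsProbabilityMeasure ρ] {πe : Measure He} [IsProbabilityMeasure πe]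
    (x : Par M) {pb : α × (Fin K → Fin N) → Conf N × E → ℝ} {be : He → E → ℝ}
    (hm : ∀ s, Measurable fun c => pb c s) (hbm : ∀ e, Measurable fun he => be he e) {ψ : α → ℝ}
    (hψ : Integrable ψ ρ) (hpb : ∀ c s, |pb c s| ≤ ψ c.1) {Ce : ℝ}
    (hbe : ∀ᵐ he ∂πe, ∀ e, |be he e| ≤ Ce) (c : ℕ) :
    ∫ he, ∫ cl, ∫ ω, ∫ F, gain x pb be he (gather (cl, F)) ω ∂sites N (c * K)
        ∂disLaw M N lam μ η ∂(Measure.pi fun _ : Fin c => ρ) ∂πe =
      ∫ v, ∫ he, ∫ ω, gain x pb be he v ω ∂disLaw M N lam μ η ∂πe
        ∂Measure.pi fun _ : Fin c => ρ.prod (sites N K) := by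
  refine integral_gather c (fun v he ω => gain x pb be he v ω) (measurable_gain x hm hbm c)
    (fun v => ∑ k, ψ (v k).1) (fun he => ∑ e, |be he e| + Real.log (Fintype.card E)) ?_ ?_
    fun v he ω => ?_
  · exact integrable_finsetSum _ fun k _ =>
      (measurePreserving_eval (fun _ : Fin c => ρ.prod (sites N K)) k).integrable_comp_of_integrable
        (hψ.comp_fst (sites N K))
  · exact (integrable_finsetSum _ fun e _ => (integrable_const Ce).mono'
      (hbm e).norm.aestronglyMeasurable
      (by filter_upwards [hbe] with he h using by simpa using h e)).add (integrable_const _)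
  · exact (abs_gain_le (ψ := fun q => ψ q.1) x hpb
      (fun e => single_le_sum (f := fun e => |be he e|) (fun _ _ => abs_nonneg _) (mem_univ e)) v
        ω).trans_eq (add_assoc _ _ _)

omit [NeZero N] in
lemma extraW_site {c : ℕ} (h : ℝ) (cl : Fin c → Table K × Fin K) (F : Fin (c * K) → Fin N)
    (σ : Conf N) :
    extraW sitePot siteBase h (gather (cl, F)) σ = siteW h cl fun i => σ (F i) := by
  simp [extraW, siteW, gather, sitePot, siteBase, Real.exp_add, Real.exp_sum, mul_comm]

omit [NeZero N] in
lemma extraW_edge {c : ℕ} (θs : Fin c → Table K) (F : Fin (c * K) → Fin N) (σ : Conf N) :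
    extraW edgePot (fun (_ : Unit) (_ : Unit) => (0 : ℝ)) () (gather (θs, F)) σ =
      edgeW θs fun i => σ (F i) := by
  simp [extraW, edgeW, gather, edgePot, Real.exp_sum]

lemma edgeVal_eq (hK : 1 ≤ K) (hl : 0 ≤ lam) (x : Par M) :
    edgeVal lam μ η N x = ∫ a, avgLz (joinPot (markPot x) edgePot)
      (joinBase fun (_ : Unit) (_ : Unit) => (0 : ℝ))
      ((Measure.pi fun _ : Fin N => η).prod (Measure.dirac ())) a
      ∂pp (joinLaw lam μ (((K : ℝ) - 1) * lam) (μ.prod (sites N K))) := by
  let e : Mark K M N ⊕ EdgeMark K N → Mark K M N := Sum.elim id Sum.inl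
  have he : Measurable e := measurable_fun_sum measurable_id measurable_inl
  have hd : 0 ≤ ((K : ℝ) - 1) * lam := mul_nonneg (by
    have : (1 : ℝ) ≤ K := by exact_mod_cast hK
    linarith) hl
  have hc : 0 ≤ mainMean lam K N := by unfold mainMean; positivity
  have : IsFiniteMeasure (markLaw M N lam μ : Measure (Mark K M N)) := by
    rw [markLaw_eq lam μ]; infer_instance
  have : IsFiniteMeasure (ENNReal.ofReal (((K : ℝ) - 1) * lam) • μ.prod (sites N K)) :=
    isFiniteMeasure_smul_ofReal _ _
  have hlaw : (joinLaw lam μ (((K : ℝ) - 1) * lam) (μ.prod (sites N K))).map e =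
      lawWith M N (mainMean lam K N + ((K : ℝ) - 1) * lam) μ := by
    unfold joinLaw
    rw [Measure.map_add _ _ he, Measure.map_map he measurable_inl, Measure.map_map he measurable_inr]
    show (markLaw M N lam μ).map id + _ = _
    rw [Measure.map_id, markLaw_eq, Measure.map_smul, lawWith, lawWith,
      ENNReal.ofReal_add hc hd, add_smul]
    show _ + _ • mainLaw K M N μ = _
    abel
  have : IsFiniteMeasure (joinLaw (M := M) (N := N) lam μ (((K : ℝ) - 1) * lam)
      (μ.prod (sites N K))) := by unfold joinLaw; infer_instance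
  have hm : Measurable (meanLz (K := K) (N := N) η x) :=
    measurable_avgLz (measurable_markPot' x) measurable_field
  rw [edgeVal, press, ← hlaw, pp_map _ he,
    integral_map (measurable_cmap he).aemeasurable hm.aestronglyMeasurable]
  refine integral_congr_ae (ae_of_all _ fun a => ?_)
  have hp : ∀ (c : Mark K M N ⊕ EdgeMark K N) (s : Conf N × Unit),
      joinPot (markPot x) edgePot c s = markPot x (e c) s.1 := by
    rintro (c | c) s <;> rfl
  have hlz : ∀ q : (Fin N → ℝ) × Unit,
      lz (joinPot (markPot x) edgePot) (joinBase (fun (_ : Unit) (_ : Unit) => (0 : ℝ)) q) a =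
        lz (markPot x) (field q.1) (cmap e a) := fun q => by
    simp [lz, joinBase, cfgSum_cmap, hp, Fintype.sum_prod_type]
  have hlm : Measurable fun q : (Fin N → ℝ) × Unit => lz (markPot x) (field q.1) (cmap e a) :=
    (Finset.measurable_sum _ fun σ _ =>
      (measurable_const.add ((measurable_field σ).comp measurable_fst)).exp).log
  unfold avgLz meanLz
  simp only [hlz]
  rw [Measure.prod_dirac, integral_map (by fun_prop) hlm.aestronglyMeasurable]
  rfl

/-- The cavity functional at a stage. -/
theorem cavityVal_eq (hK : 1 ≤ K) (hl : 0 ≤ lam) (hb : BoundedModel B0 μ η) {x : Par M}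
    (hx : ∀ i, |x i| ≤ 2) :
    cavityVal lam μ η (stageCol lam μ η N x) = siteVal lam μ η N x - edgeVal lam μ η N x := by
  have : NeZero K := ⟨by omega⟩
  have hd1 : 0 ≤ (K : ℝ) * lam := mul_nonneg K.cast_nonneg hl
  have hd2 : 0 ≤ ((K : ℝ) - 1) * lam := mul_nonneg (by
    have : (1 : ℝ) ≤ K := by exact_mod_cast hK
    linarith) hl
  have hsb : ∀ᵐ h ∂η, ∀ ε, |siteBase h ε| ≤ B0 := by
    filter_upwards [hb.2] with h hh ε
    rw [siteBase, abs_mul, abs_spin, mul_one]; exact hh
  have hsm : ∀ ε, Measurable fun h => siteBase h ε := fun ε => by unfold siteBase; fun_prop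
  have hψ : Integrable (fun c : Table K × Fin K => tabBd c.1) (μ.prod (unif K)) :=
    (integrable_tabBd hb).comp_fst _
  have g1 := gap_eq (lam := lam) (pb := sitePot (K := K) (N := N)) (be := siteBase) hb hx hd1
    (νb := siteLaw K N μ) (πe := η) measurable_sitePot hsm
    (ψ := fun c => tabBd c.1.1) (measurable_tabBd.comp (measurable_fst.comp measurable_fst))
    (hψ.comp_fst _) (fun c s => abs_le_tabBd c.1.1 _) hsb
  have g2 := gap_eq (lam := lam) (pb := edgePot (K := K) (N := N))
    (be := fun (_ : Unit) (_ : Unit) => (0 : ℝ)) hb hx hd2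
    (νb := μ.prod (sites N K)) (πe := Measure.dirac ()) (fun s => measurable_table_apply s.1)
    (fun _ => measurable_const) (ψ := fun c => tabBd c.1) (measurable_tabBd.comp measurable_fst)
    ((integrable_tabBd hb).comp_fst _) (fun c s => abs_le_tabBd c.1 _) (Ce := 0)
    (ae_of_all _ fun _ _ => by simp)
  rw [← edgeVal_eq hK hl x] at g2
  change siteVal lam μ η N x - _ = _ at g1
  suffices h : cavityVal lam μ η (stageCol lam μ η N x) =
      (siteVal lam μ η N x - press μ η N (mainMean lam K N) x) -
        (edgeVal lam μ η N x - press μ η N (mainMean lam K N) x) by rw [h]; ring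
  rw [g1, g2]
  unfold cavityVal
  congr 1 <;> refine congrArg (poissonAvg _) (funext fun c => ?_)
  · rw [← gain_swap x measurable_sitePot hsm hψ (fun q s => abs_le_tabBd q.1.1 _) hsb c]
    refine integral_congr_ae (ae_of_all _ fun h => integral_congr_ae (ae_of_all _ fun cl => ?_))
    dsimp only
    rw [logMom_stageCol x (W := siteW h cl) fun σ => sum_pos (fun ε _ => mul_pos (Real.exp_pos _)
      (prod_pos fun k _ => Real.exp_pos _)) univ_nonempty]
    refine integral_congr_ae (ae_of_all _ fun ω => integral_congr_ae (ae_of_all _ fun F => ?_))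
    simp only [gain, logAvg, extraW_site]
  · rw [← gain_swap x (pb := edgePot) (be := fun (_ : Unit) (_ : Unit) => (0 : ℝ))
      (fun s => measurable_table_apply s.1) (fun _ => measurable_const)
      (integrable_tabBd hb) (fun q s => abs_le_tabBd q.1 _) (Ce := 0)
      (ae_of_all _ fun _ _ => by simp) c]
    rw [integral_dirac]
    refine integral_congr_ae (ae_of_all _ fun θs => ?_)
    dsimp only
    rw [logMom_stageCol x (W := edgeW θs) fun σ => prod_pos fun k _ => Real.exp_pos _]
    refine integral_congr_ae (ae_of_all _ fun ω => integral_congr_ae (ae_of_all _ fun F => ?_))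
    simp only [gain, logAvg, extraW_edge]

end Vale.Agent.P168.ASS
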