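import Vale.Agent.P168.Fin.ASS.Embed

/-!
P168: one more site adds the cavity functional, up to a small error.
-/

namespace Vale.Agent.P168.ASS

open MeasureTheory ProbabilityTheory Finset

variable {K M N : ℕ}

/-- The old clauses among those on `N + 1` sites. -/
noncomputable def oldMain (K M N : ℕ) (μ : Measure (Table K)) : Measure (Mark K M (N + 1)) :=
  (mainLaw K M N μ).map embOld

/-- The clauses at the cavity site among those on `N + 1` sites. -/
noncomputable def newMain (K M N : ℕ) (μ : Measure (Table K)) : Measure (Mark K M (N + 1)) :=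
  (siteLaw K N μ).map embNew

/-- The old perturbing clauses among those on `N + 1` sites. -/
noncomputable def oldPert (K : ℕ) {M : ℕ} (N : ℕ) (i : Fin M) : Measure (Mark K M (N + 1)) :=
  (pertLaw K N i).map embOld

lemma map_finset_sum {α β ι : Type} [MeasurableSpace α] [MeasurableSpace β] {f : α → β}
    (hf : Measurable f) (s : Finset ι) (ν : ι → Measure α) :
    (∑ i ∈ s, ν i).map f = ∑ i ∈ s, (ν i).map f := by
  classical
  induction s using Finset.induction_on with
  | empty => simp
  | insert a s ha ih => rw [sum_insert ha, sum_insert ha, Measure.map_add _ _ hf, ih]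

section

variable [NeZero N] [NeZero K] {μ : Measure (Table K)} [IsProbabilityMeasure μ]

instance : IsProbabilityMeasure (oldMain K M N μ) :=
  Measure.isProbabilityMeasure_map measurable_embOld.aemeasurable

instance : IsProbabilityMeasure (newMain K M N μ) :=
  Measure.isProbabilityMeasure_map measurable_embNew.aemeasurable

omit [NeZero K] in
instance (i : Fin M) : IsProbabilityMeasure (oldPert K N i) :=
  Measure.isProbabilityMeasure_map measurable_embOld.aemeasurable

omit [NeZero N] [NeZero K] [IsProbabilityMeasure μ] in
lemma map_joinLaw {lam : ℝ} {d : ℝ} :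
    (joinLaw lam μ d (siteLaw K N μ)).map emb =
      ENNReal.ofReal (mainMean lam K N) • oldMain K M N μ + ENNReal.ofReal d • newMain K M N μ +
        ∑ i : Fin M, ENNReal.ofReal (sN N) • oldPert K N i := by
  unfold joinLaw
  rw [Measure.map_add _ _ measurable_emb, Measure.map_map measurable_emb measurable_inl,
    Measure.map_map measurable_emb measurable_inr]
  show (markLaw M N lam μ).map embOld + (ENNReal.ofReal d • siteLaw K N μ).map embNew = _
  rw [markLaw_eq, lawWith, Measure.map_add _ _ measurable_embOld, Measure.map_smul,
    Measure.map_smul, map_finset_sum measurable_embOld]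
  simp only [Measure.map_smul]
  unfold oldMain newMain oldPert
  abel

lemma integrable_bd_main (hθ : Integrable tabBd μ) :
    Integrable (markBd : Mark K M (N + 1) → ℝ) (oldMain K M N μ) ∧
      Integrable (markBd : Mark K M (N + 1) → ℝ) (newMain K M N μ) ∧
      ∫ c, markBd c ∂oldMain K M N μ = ∫ θ, tabBd θ ∂μ ∧
      ∫ c, markBd c ∂newMain K M N μ = ∫ θ, tabBd θ ∂μ := by
  have h1 : Measurable (embOld ∘ Sum.inl : Table K × (Fin K → Fin N) → Mark K M (N + 1)) :=
    measurable_embOld.comp measurable_mainInj
  have e : oldMain K M N μ = (μ.prod (sites N K)).map (embOld ∘ Sum.inl) := by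
    rw [oldMain, mainLaw, Measure.map_map measurable_embOld measurable_mainInj]
  refine ⟨?_, ?_, ?_, ?_⟩
  · rw [e]
    exact (integrable_map_measure measurable_markBd.aestronglyMeasurable h1.aemeasurable).2
      (hθ.comp_fst _)
  · exact (integrable_map_measure measurable_markBd.aestronglyMeasurable
      measurable_embNew.aemeasurable).2 ((hθ.comp_fst (unif K)).comp_fst _)
  · rw [e, integral_map h1.aemeasurable measurable_markBd.aestronglyMeasurable]
    exact (integral_fun_fst (μ := μ) (ν := sites N K) tabBd).trans (by simp)
  · rw [newMain, integral_map measurable_embNew.aemeasurable measurable_markBd.aestronglyMeasurable]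
    exact (integral_fun_fst (μ := μ.prod (unif K)) (ν := sites N K) fun q => tabBd q.1).trans (by
      rw [integral_fun_fst (μ := μ) (ν := unif K) tabBd]; simp)

omit [NeZero K] in
lemma integrable_bd_pert (i : Fin M) :
    Integrable (markBd : Mark K M (N + 1) → ℝ) (oldPert K N i) ∧
      ∫ c, markBd c ∂oldPert K N i = ∫ g, gBd i g ∂gaussMarks (ar i) := by
  have h1 : Measurable (embOld ∘ fun g => (Sum.inr ⟨i, g⟩ : Mark K M N)) :=
    measurable_embOld.comp (measurable_pertInj i)
  have e : oldPert K N i = ((sites N (ar i)).prod (gaussMarks (ar i))).map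
      (embOld ∘ fun g => (Sum.inr ⟨i, g⟩ : Mark K M N)) := by
    rw [oldPert, pertLaw, Measure.map_map measurable_embOld (measurable_pertInj i)]
  rw [e]
  refine ⟨(integrable_map_measure measurable_markBd.aestronglyMeasurable h1.aemeasurable).2
    ((integrable_gBd i).comp_snd _), ?_⟩
  rw [integral_map h1.aemeasurable measurable_markBd.aestronglyMeasurable]
  exact (integral_fun_snd (μ := sites N (ar i)) (ν := gaussMarks (ar i)) (gBd i)).trans (by simp)

/-- The main clauses on `N + 1` sites. -/
lemma exists_split_main (hθ : Integrable tabBd μ) :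
    ∃ r : Measure (Mark K M (N + 1)), IsFiniteMeasure r ∧
      mainLaw K M (N + 1) μ = ENNReal.ofReal (qOld N K) • oldMain K M N μ +
        ENNReal.ofReal (qNew N K) • newMain K M N μ + r ∧
      Integrable markBd r ∧ ∫ c, markBd c ∂r = (1 - qOld N K - qNew N K) * ∫ θ, tabBd θ ∂μ := by
  obtain ⟨r, hr, hr1, e⟩ := exists_rest_main (N := N) (k := K)
  refine ⟨(μ.prod r).map Sum.inl, inferInstance, ?_,
    (integrable_map_measure measurable_markBd.aestronglyMeasurable
      measurable_mainInj.aemeasurable).2 (hθ.comp_fst _), ?_⟩
  · have h1 : (μ.prod ((sites N K).map oldSites)).map Sum.inl = oldMain K M N μ := by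
      rw [oldMain, mainLaw, Measure.map_map measurable_embOld measurable_mainInj,
        ← Measure.map_id (μ := μ), Measure.map_prod_map _ _ measurable_id Measurable.of_discrete,
        Measure.map_map measurable_mainInj (measurable_id.prodMap Measurable.of_discrete),
        Measure.map_id]
      rfl
    have h2 : (μ.prod (((unif K).prod (sites N K)).map newSites)).map Sum.inl = newMain K M N μ := by
      rw [newMain, siteLaw, ← (measurePreserving_prodAssoc μ (unif K) (sites N K)).symm
        MeasurableEquiv.prodAssoc |>.map_eq]
      rw [← Measure.map_id (μ := μ), Measure.map_prod_map _ _ measurable_id Measurable.of_discrete,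
        Measure.map_map measurable_mainInj (measurable_id.prodMap Measurable.of_discrete),
        Measure.map_id, Measure.map_map measurable_embNew (MeasurableEquiv.measurable _)]
      rfl
    rw [mainLaw, e, Measure.prod_add, Measure.prod_add, Measure.prod_smul_right,
      Measure.prod_smul_right, Measure.map_add _ _ measurable_mainInj,
      Measure.map_add _ _ measurable_mainInj, Measure.map_smul, Measure.map_smul, h1, h2]
  · rw [integral_map measurable_mainInj.aemeasurable measurable_markBd.aestronglyMeasurable]
    exact (integral_fun_fst (μ := μ) (ν := r) tabBd).trans (by rw [smul_eq_mul, hr1])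

omit [NeZero K] in
/-- The perturbing clauses on `N + 1` sites. -/
lemma exists_split_pert (i : Fin M) :
    ∃ r : Measure (Mark K M (N + 1)), IsFiniteMeasure r ∧
      pertLaw K (N + 1) i = ENNReal.ofReal (qOld N (ar i)) • oldPert K N i + r ∧
      Integrable markBd r ∧
      ∫ c, markBd c ∂r = (1 - qOld N (ar i)) * ∫ g, gBd i g ∂gaussMarks (ar i) := by
  obtain ⟨r, hr, hr1, e⟩ := exists_rest_pert (N := N) (k := ar i)
  have hm := measurable_pertInj (K := K) (N := N + 1) i
  refine ⟨(r.prod (gaussMarks (ar i))).map fun g => Sum.inr ⟨i, g⟩, inferInstance, ?_,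
    (integrable_map_measure measurable_markBd.aestronglyMeasurable hm.aemeasurable).2
      ((integrable_gBd i).comp_snd _), ?_⟩
  · have h1 : (((sites N (ar i)).map oldSites).prod (gaussMarks (ar i))).map
        (fun g => (Sum.inr ⟨i, g⟩ : Mark K M (N + 1))) = oldPert K N i := by
      rw [oldPert, pertLaw, Measure.map_map measurable_embOld (measurable_pertInj i),
        ← Measure.map_id (μ := gaussMarks (ar i)),
        Measure.map_prod_map _ _ Measurable.of_discrete measurable_id,
        Measure.map_map hm (Measurable.of_discrete.prodMap measurable_id), Measure.map_id]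
      rfl
    rw [pertLaw, e, Measure.add_prod, Measure.prod_smul_left, Measure.map_add _ _ hm,
      Measure.map_smul, h1]
  · rw [integral_map hm.aemeasurable measurable_markBd.aestronglyMeasurable]
    exact (integral_fun_snd (μ := r) (ν := gaussMarks (ar i)) (gBd i)).trans
      (by rw [smul_eq_mul, hr1])

end

end Vale.Agent.P168.ASS
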