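import Vale.Agent.P168.Fin.Model

/-!
P168: elementary estimates on the rates of the perturbed models.
-/

namespace Vale.Agent.P168.ASS

open Real

lemma pow_taylor (K : ℕ) {u : ℝ} (h0 : 0 ≤ u) (h1 : u ≤ 1) :
    1 - (K : ℝ) * (1 - u) ≤ u ^ K ∧ u ^ K ≤ 1 - K * (1 - u) + (K : ℝ) ^ 2 * (1 - u) ^ 2 := by
  induction K with
  | zero => simp
  | succ K ih =>
    obtain ⟨a, b⟩ := ih
    push_cast
    have hK : (0 : ℝ) ≤ K := K.cast_nonneg
    have ht : 0 ≤ 1 - u := by linarith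
    have hp : u ^ K ≤ 1 := pow_le_one₀ h0 h1
    rw [pow_succ]
    constructor
    · nlinarith [mul_le_mul_of_nonneg_right hp ht]
    · nlinarith [mul_le_mul_of_nonneg_right a ht, sq_nonneg (1 - u)]

lemma one_sub_pow_le (K : ℕ) {u : ℝ} (h0 : 0 ≤ u) (h1 : u ≤ 1) :
    1 - u ^ K ≤ (K : ℝ) * (1 - u) := by
  linarith [(pow_taylor K h0 h1).1]

lemma frac_facts (N : ℕ) :
    0 ≤ (N : ℝ) / (N + 1) ∧ (N : ℝ) / (N + 1) ≤ 1 ∧
      1 - (N : ℝ) / (N + 1) = 1 / ((N : ℝ) + 1) := by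
  have h : (0 : ℝ) < (N : ℝ) + 1 := by positivity
  refine ⟨by positivity, (div_le_one h).2 (by linarith), ?_⟩
  field_simp
  ring

/-- The main mean up to its first order. -/
lemma abs_mainMean_sub {lam : ℝ} (hl : 0 ≤ lam) (K N : ℕ) :
    |lam * N - (mainMean lam K N + ((K : ℝ) - 1) * lam)| ≤ lam * (K : ℝ) ^ 2 / (N + 1) := by
  obtain ⟨h0, h1, ht⟩ := frac_facts N
  obtain ⟨a, b⟩ := pow_taylor K h0 h1
  set u := (N : ℝ) / (N + 1)
  set t := 1 - u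
  have hN : (0 : ℝ) < (N : ℝ) + 1 := by positivity
  have e : lam * N - (mainMean lam K N + ((K : ℝ) - 1) * lam) =
      -(lam * ((N : ℝ) + 1) * (u ^ K - (1 - K * t))) := by
    unfold mainMean
    have : ((N : ℝ) + 1) * t = 1 := by rw [ht]; field_simp
    linear_combination (lam * K) * this
  rw [e, abs_neg, abs_of_nonneg (mul_nonneg (by positivity) (by linarith))]
  calc lam * ((N : ℝ) + 1) * (u ^ K - (1 - K * t))
      ≤ lam * ((N : ℝ) + 1) * ((K : ℝ) ^ 2 * t ^ 2) :=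
        mul_le_mul_of_nonneg_left (by linarith) (by positivity)
    _ = lam * (K : ℝ) ^ 2 / (N + 1) := by rw [ht]; field_simp

/-- The mass of clauses with two or more new sites. -/
lemma rest_mass_le (K N : ℕ) :
    ((N : ℝ) + 1) * (1 - ((N : ℝ) / (N + 1)) ^ K -
      K * ((N : ℝ) / (N + 1)) ^ (K - 1) / (N + 1)) ≤ (K : ℝ) ^ 2 / (N + 1) := by
  obtain ⟨h0, h1, ht⟩ := frac_facts N
  set u := (N : ℝ) / (N + 1)
  have hN : (0 : ℝ) < (N : ℝ) + 1 := by positivity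
  have a := (pow_taylor K h0 h1).1
  have b := one_sub_pow_le (K - 1) h0 h1
  have hK : ((K - 1 : ℕ) : ℝ) ≤ K := Nat.cast_le.2 (Nat.sub_le K 1)
  have ht0 : 0 ≤ 1 - u := by linarith
  have c : 1 - u ^ (K - 1) ≤ (K : ℝ) * (1 - u) := b.trans (mul_le_mul_of_nonneg_right hK ht0)
  have e : ((N : ℝ) + 1) * (1 - u) = 1 := by rw [ht]; field_simp
  calc ((N : ℝ) + 1) * (1 - u ^ K - K * u ^ (K - 1) / (N + 1))
      = ((N : ℝ) + 1) * (1 - u ^ K) - K * u ^ (K - 1) := by field_simp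
    _ ≤ ((N : ℝ) + 1) * (K * (1 - u)) - K * u ^ (K - 1) := by
        linarith [mul_le_mul_of_nonneg_left (show 1 - u ^ K ≤ K * (1 - u) by linarith) hN.le]
    _ = K * (1 - u ^ (K - 1)) := by linear_combination (K : ℝ) * e
    _ ≤ K * (K * (1 - u)) := mul_le_mul_of_nonneg_left c K.cast_nonneg
    _ = (K : ℝ) ^ 2 / (N + 1) := by rw [ht]; ring

lemma inv_succ_le {N : ℕ} (hN : 1 ≤ N) : 1 / ((N : ℝ) + 1) ≤ (N : ℝ) ^ (-(1 / 5) : ℝ) := by
  have h1 : (1 : ℝ) ≤ N := by exact_mod_cast hN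
  calc 1 / ((N : ℝ) + 1) ≤ 1 / (N : ℝ) := by gcongr; linarith
    _ = (N : ℝ) ^ (-1 : ℝ) := by rw [rpow_neg_one, one_div]
    _ ≤ _ := rpow_le_rpow_of_exponent_le h1 (by norm_num)

lemma sN_succ_div_le {N : ℕ} (hN : 1 ≤ N) :
    sN (N + 1) / ((N : ℝ) + 1) ≤ (N : ℝ) ^ (-(1 / 5) : ℝ) := by
  have h0 : (0 : ℝ) < (N : ℝ) + 1 := by positivity
  have e : sN (N + 1) / ((N : ℝ) + 1) = ((N : ℝ) + 1) ^ (-(1 / 5) : ℝ) := by
    rw [sN, Nat.cast_succ, show (-(1 / 5) : ℝ) = 4 / 5 - 1 by norm_num, rpow_sub_one h0.ne']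
  rw [e]
  exact rpow_le_rpow_of_nonpos (by exact_mod_cast hN) (by linarith) (by norm_num)

lemma sN_succ_sub_le {N : ℕ} (hN : 1 ≤ N) :
    0 ≤ sN (N + 1) - sN N ∧ sN (N + 1) - sN N ≤ (N : ℝ) ^ (-(1 / 5) : ℝ) := by
  have h1 : (1 : ℝ) ≤ N := by exact_mod_cast hN
  have h0 : (0 : ℝ) < N := by linarith
  refine ⟨sub_nonneg.2 (rpow_le_rpow h0.le (by simp) (by norm_num)), ?_⟩
  have hb := rpow_one_add_le_one_add_mul_self (s := 1 / (N : ℝ)) (p := 4 / 5)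
    (le_trans (by norm_num) (one_div_pos.2 h0).le) (by norm_num) (by norm_num)
  have e : sN (N + 1) = sN N * (1 + 1 / (N : ℝ)) ^ (4 / 5 : ℝ) := by
    rw [sN, sN, ← mul_rpow h0.le (by positivity), mul_add, mul_one, mul_one_div_cancel h0.ne',
      Nat.cast_succ]
  have e2 : sN N / N = (N : ℝ) ^ (-(1 / 5) : ℝ) := by
    rw [sN, show (-(1 / 5) : ℝ) = 4 / 5 - 1 by norm_num, rpow_sub_one h0.ne']
  rw [e]
  have hs : 0 ≤ sN N := rpow_nonneg h0.le _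
  calc sN N * (1 + 1 / (N : ℝ)) ^ (4 / 5 : ℝ) - sN N
      ≤ sN N * (1 + 4 / 5 * (1 / (N : ℝ))) - sN N := by
        linarith [mul_le_mul_of_nonneg_left hb hs]
    _ ≤ sN N / N := by
        have : 0 ≤ sN N / N := div_nonneg hs h0.le
        have e3 : sN N * (1 + 4 / 5 * (1 / (N : ℝ))) - sN N = 4 / 5 * (sN N / N) := by ring
        linarith
    _ = _ := e2

lemma sN_mul_beta_sub_le {N : ℕ} (hN : 1 ≤ N) :
    sN N * |betaN (N + 1) - betaN N| ≤ (N : ℝ) ^ (-(1 / 5) : ℝ) := by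
  have h1 : (1 : ℝ) ≤ N := by exact_mod_cast hN
  have h0 : (0 : ℝ) < N := by linarith
  have hx : (0 : ℝ) < 1 + 1 / (N : ℝ) := by positivity
  have hb := rpow_one_add_le_one_add_mul_self (s := 1 / (N : ℝ)) (p := 1 / 10)
    (le_trans (by norm_num) (one_div_pos.2 h0).le) (by norm_num) (by norm_num)
  set w := (1 + 1 / (N : ℝ)) ^ (-(1 / 10) : ℝ) with hw
  have e : betaN (N + 1) = betaN N * w := by
    rw [hw, betaN, betaN, ← mul_rpow h0.le hx.le, mul_add, mul_one, mul_one_div_cancel h0.ne',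
      Nat.cast_succ]
  have hw1 : w ≤ 1 := rpow_le_one_of_one_le_of_nonpos (by simp) (by norm_num)
  have hw0 : 1 - w ≤ 1 / (N : ℝ) := by
    set v := (1 + 1 / (N : ℝ)) ^ (1 / 10 : ℝ)
    have hv : 0 < v := rpow_pos_of_pos hx _
    have hwv : w * v = 1 := by rw [hw, ← rpow_add hx]; norm_num
    have : (1 - w) * v ≤ 1 / 10 * (1 / (N : ℝ)) := by nlinarith
    have hv1 : 1 ≤ v := one_le_rpow (by simp) (by norm_num)
    nlinarith [one_div_pos.2 h0]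
  have hbn : 0 ≤ betaN N := rpow_nonneg h0.le _
  rw [e, show betaN N * w - betaN N = -(betaN N * (1 - w)) by ring, abs_neg,
    abs_of_nonneg (mul_nonneg hbn (by linarith))]
  calc sN N * (betaN N * (1 - w)) ≤ sN N * (betaN N * (1 / (N : ℝ))) :=
        mul_le_mul_of_nonneg_left (mul_le_mul_of_nonneg_left hw0 hbn) (rpow_nonneg h0.le _)
    _ = (N : ℝ) ^ (-(3 / 10) : ℝ) := by
        rw [sN, betaN, one_div (N : ℝ), ← rpow_neg_one, ← rpow_add h0, ← rpow_add h0]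
        norm_num
    _ ≤ _ := rpow_le_rpow_of_exponent_le h1 (by norm_num)

end Vale.Agent.P168.ASS
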