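import Vale.Agent.P168.Fin.ASS.Pieces
import Vale.Agent.P168.Fin.ASS.Estimates

/-!
P168: tuples of uniform sites among `N + 1` split by the number of appearances of the new site.
-/

namespace Vale.Agent.P168.ASS

open MeasureTheory Finset
open scoped ENNReal

variable {N k : ℕ}

/-- A tuple of old sites. -/
def oldSites (I : Fin k → Fin N) : Fin k → Fin (N + 1) := fun j => (I j).castSucc

/-- A tuple with the new site in one position. -/
def newSites (q : Fin k × (Fin k → Fin N)) : Fin k → Fin (N + 1) :=
  Function.update (oldSites q.2) q.1 (Fin.last N)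

lemma unif_singleton (N : ℕ) (a : Fin N) : unif N {a} = (N : ℝ≥0∞)⁻¹ := by
  simp [unif]

lemma sites_singleton (N k : ℕ) [NeZero N] (I : Fin k → Fin N) :
    sites N k {I} = ((N : ℝ≥0∞)⁻¹) ^ k := by
  simp [unif]

/-- The share of the tuples of old sites. -/
noncomputable def qOld (N k : ℕ) : ℝ := ((N : ℝ) / (N + 1)) ^ k

/-- The share of the tuples with one new site. -/
noncomputable def qNew (N k : ℕ) : ℝ := k * ((N : ℝ) / (N + 1)) ^ (k - 1) / (N + 1)

lemma qOld_nonneg (N k : ℕ) : 0 ≤ qOld N k := by unfold qOld; positivity

lemma qNew_nonneg (N k : ℕ) : 0 ≤ qNew N k := by unfold qNew; positivity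

lemma qOld_le_one (N k : ℕ) : qOld N k ≤ 1 :=
  pow_le_one₀ (frac_facts N).1 (frac_facts N).2.1

variable [NeZero N]

lemma old_apply_le (J : Fin k → Fin (N + 1)) :
    ENNReal.ofReal (qOld N k) * sites N k (oldSites ⁻¹' {J}) ≤ sites (N + 1) k {J} := by
  rcases (oldSites (N := N) (k := k) ⁻¹' {J}).eq_empty_or_nonempty with h | ⟨I, hI⟩
  · simp [h]
  have e : oldSites ⁻¹' {J} = {I} := by
    rw [Set.mem_preimage, Set.mem_singleton_iff] at hI
    ext I'
    simp only [Set.mem_preimage, Set.mem_singleton_iff, ← hI]
    exact ⟨fun h => funext fun j => Fin.castSucc_injective _ (congrFun h j), fun h => h ▸ rfl⟩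
  rw [e, sites_singleton, sites_singleton]
  have hN : (0 : ℝ) < N := by exact_mod_cast Nat.pos_of_ne_zero (NeZero.ne N)
  rw [qOld, ENNReal.ofReal_pow (by positivity), ← mul_pow, ← ENNReal.ofReal_natCast N,
    ← ENNReal.ofReal_inv_of_pos hN, ← ENNReal.ofReal_mul (by positivity), Nat.cast_succ,
    ← ENNReal.ofReal_natCast N, ← ENNReal.ofReal_one, ← ENNReal.ofReal_add hN.le zero_le_one,
    ← ENNReal.ofReal_inv_of_pos (by positivity)]
  refine le_of_eq (congrArg (fun r : ℝ≥0∞ => r ^ k) (congrArg ENNReal.ofReal ?_))
  field_simp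

lemma new_apply_le [NeZero k] (J : Fin k → Fin (N + 1)) :
    ENNReal.ofReal (qNew N k) * ((unif k).prod (sites N k)) (newSites ⁻¹' {J}) ≤
      sites (N + 1) k {J} := by
  rcases (newSites (N := N) (k := k) ⁻¹' {J}).eq_empty_or_nonempty with h | ⟨⟨l, I⟩, hI⟩
  · simp [h]
  rw [Set.mem_preimage, Set.mem_singleton_iff] at hI
  have hsub : newSites ⁻¹' {J} ⊆
      ⋃ v : Fin N, {((l, Function.update I l v) : Fin k × (Fin k → Fin N))} := by
    rintro ⟨l', I'⟩ hq
    rw [Set.mem_preimage, Set.mem_singleton_iff, ← hI] at hq
    have hl : l' = l := by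
      by_contra hne
      have := congrFun hq l'
      rw [newSites, Function.update_self, newSites, Function.update_of_ne hne] at this
      exact (Fin.castSucc_ne_last (I l')) this.symm
    subst hl
    refine Set.mem_iUnion.2 ⟨I' l', ?_⟩
    rw [Set.mem_singleton_iff, Prod.mk.injEq]
    refine ⟨rfl, funext fun j => ?_⟩
    rcases eq_or_ne j l' with rfl | hne
    · rw [Function.update_self]
    · rw [Function.update_of_ne hne]
      have := congrFun hq j
      rw [newSites, Function.update_of_ne hne, newSites, Function.update_of_ne hne] at this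
      exact Fin.castSucc_injective _ this
  refine (mul_le_mul' le_rfl ((measure_mono hsub).trans (measure_iUnion_fintype_le _ _))).trans ?_
  simp only [← Set.singleton_prod_singleton, Measure.prod_prod, sites_singleton, unif_singleton,
    sum_const, card_univ, Fintype.card_fin, nsmul_eq_mul]
  have hN : (0 : ℝ) < N := by exact_mod_cast Nat.pos_of_ne_zero (NeZero.ne N)
  have hk : (0 : ℝ) < k := by exact_mod_cast Nat.pos_of_ne_zero (NeZero.ne k)
  rw [Nat.cast_succ, ← ENNReal.ofReal_natCast N, ← ENNReal.ofReal_natCast k, ← ENNReal.ofReal_one,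
    ← ENNReal.ofReal_add hN.le zero_le_one, ← ENNReal.ofReal_inv_of_pos hN,
    ← ENNReal.ofReal_inv_of_pos hk, ← ENNReal.ofReal_inv_of_pos (by positivity),
    ← ENNReal.ofReal_pow (by positivity), ← ENNReal.ofReal_pow (by positivity),
    ← ENNReal.ofReal_mul (by positivity), ← ENNReal.ofReal_mul hN.le,
    ← ENNReal.ofReal_mul (qNew_nonneg N k)]
  refine le_of_eq (congrArg ENNReal.ofReal ?_)
  obtain ⟨j, rfl⟩ : ∃ j, k = j + 1 := ⟨k - 1, by have := NeZero.ne k; omega⟩
  rw [qNew, Nat.add_sub_cancel, div_pow, inv_pow, inv_pow, pow_succ, pow_succ]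
  field_simp

/-- The old tuples and those with one new site are within the uniform law. -/
lemma old_add_new_le [NeZero k] :
    ENNReal.ofReal (qOld N k) • (sites N k).map oldSites +
      ENNReal.ofReal (qNew N k) • ((unif k).prod (sites N k)).map newSites ≤ sites (N + 1) k := by
  refine Measure.le_iff.2 fun s hs => ?_
  rw [← Set.Finite.coe_toFinset s.toFinite, ← sum_measure_singleton, ← sum_measure_singleton]
  refine sum_le_sum fun J _ => ?_
  simp only [Measure.add_apply, Measure.smul_apply, smul_eq_mul]
  rw [Measure.map_apply Measurable.of_discrete (measurableSet_singleton J),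
    Measure.map_apply Measurable.of_discrete (measurableSet_singleton J)]
  by_cases h : ∃ j, J j = Fin.last N
  · obtain ⟨j, hj⟩ := h
    have e : oldSites ⁻¹' {J} = (∅ : Set (Fin k → Fin N)) := by
      ext I
      simp only [Set.mem_preimage, Set.mem_singleton_iff, Set.mem_empty_iff_false, iff_false]
      exact fun he => Fin.castSucc_ne_last (I j) ((congrFun he j).trans hj)
    rw [e, measure_empty, mul_zero, zero_add]
    exact new_apply_le J
  · have e : newSites ⁻¹' {J} = (∅ : Set (Fin k × (Fin k → Fin N))) := by
      ext ⟨l, I⟩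
      simp only [Set.mem_preimage, Set.mem_singleton_iff, Set.mem_empty_iff_false, iff_false]
      exact fun he => h ⟨l, by rw [← he, newSites, Function.update_self]⟩
    rw [e, measure_empty, mul_zero, add_zero]
    exact old_apply_le J

/-- The remaining tuples. -/
lemma exists_rest_pert :
    ∃ r : Measure (Fin k → Fin (N + 1)), IsFiniteMeasure r ∧ r.real Set.univ = 1 - qOld N k ∧
      sites (N + 1) k = ENNReal.ofReal (qOld N k) • (sites N k).map oldSites + r := by
  set a := ENNReal.ofReal (qOld N k) • (sites N k).map (oldSites (N := N) (k := k))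
  have : IsFiniteMeasure a := isFiniteMeasure_smul_ofReal _ _
  have hle : a ≤ sites (N + 1) k := Measure.le_iff.2 fun s hs => by
    rw [← Set.Finite.coe_toFinset s.toFinite, ← sum_measure_singleton, ← sum_measure_singleton]
    refine sum_le_sum fun J _ => ?_
    rw [Measure.smul_apply, smul_eq_mul,
      Measure.map_apply Measurable.of_discrete (measurableSet_singleton J)]
    exact old_apply_le J
  have : IsFiniteMeasure (sites (N + 1) k - a) := isFiniteMeasure_of_le _ Measure.sub_le
  have e : a + (sites (N + 1) k - a) = sites (N + 1) k :=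
    (add_comm a _).trans (Measure.sub_add_cancel_of_le hle)
  refine ⟨sites (N + 1) k - a, this, ?_, e.symm⟩
  have h := congrArg (fun m : Measure (Fin k → Fin (N + 1)) => m.real Set.univ) e
  beta_reduce at h
  rw [measureReal_add_apply] at h
  have ha : a.real Set.univ = qOld N k := by
    simp [a, measureReal_ennreal_smul_apply, qOld_nonneg,
      map_measureReal_apply (Measurable.of_discrete (f := oldSites (N := N) (k := k)))
        MeasurableSet.univ]
  have hu : (sites (N + 1) k).real Set.univ = 1 := probReal_univ
  linarith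

/-- The remaining tuples with two or more new sites. -/
lemma exists_rest_main [NeZero k] :
    ∃ r : Measure (Fin k → Fin (N + 1)), IsFiniteMeasure r ∧
      r.real Set.univ = 1 - qOld N k - qNew N k ∧
      sites (N + 1) k = ENNReal.ofReal (qOld N k) • (sites N k).map oldSites +
        ENNReal.ofReal (qNew N k) • ((unif k).prod (sites N k)).map newSites + r := by
  set a := ENNReal.ofReal (qOld N k) • (sites N k).map (oldSites (N := N) (k := k))
  set b := ENNReal.ofReal (qNew N k) • ((unif k).prod (sites N k)).map (newSites (N := N) (k := k))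
  have : IsFiniteMeasure a := isFiniteMeasure_smul_ofReal _ _
  have : IsFiniteMeasure b := isFiniteMeasure_smul_ofReal _ _
  have : IsFiniteMeasure (sites (N + 1) k - (a + b)) := isFiniteMeasure_of_le _ Measure.sub_le
  have e : a + b + (sites (N + 1) k - (a + b)) = sites (N + 1) k :=
    (add_comm (a + b) _).trans (Measure.sub_add_cancel_of_le old_add_new_le)
  refine ⟨sites (N + 1) k - (a + b), this, ?_, e.symm⟩
  have h := congrArg (fun m : Measure (Fin k → Fin (N + 1)) => m.real Set.univ) e
  beta_reduce at h
  rw [measureReal_add_apply, measureReal_add_apply] at h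
  have ha : a.real Set.univ = qOld N k := by
    simp [a, measureReal_ennreal_smul_apply, qOld_nonneg,
      map_measureReal_apply (Measurable.of_discrete (f := oldSites (N := N) (k := k)))
        MeasurableSet.univ]
  have hb : b.real Set.univ = qNew N k := by
    simp [b, measureReal_ennreal_smul_apply, qNew_nonneg,
      map_measureReal_apply (Measurable.of_discrete (f := newSites (N := N) (k := k)))
        MeasurableSet.univ]
  have hu : (sites (N + 1) k).real Set.univ = 1 := probReal_univ
  linarith

end Vale.Agent.P168.ASS
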