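import Vale.Agent.P168.Fin.ASS.Cavity
import Vale.Agent.P168.Fin.ASS.Split

/-!
P168: the common system with a cavity site inside the system of `N + 1` sites.
-/

namespace Vale.Agent.P168.ASS

open MeasureTheory ProbabilityTheory Finset

variable {K M N : ℕ}

/-- Old clauses on `N + 1` sites. -/
noncomputable def embOld : Mark K M N → Mark K M (N + 1)
  | Sum.inl cl => Sum.inl (cl.1, oldSites cl.2)
  | Sum.inr ⟨i, I, g⟩ => Sum.inr ⟨i, oldSites I, g⟩

/-- Clauses at the cavity site on `N + 1` sites. -/
noncomputable def embNew (c : SiteMark K N) : Mark K M (N + 1) := Sum.inl (c.1.1, newSites (c.1.2, c.2))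

/-- Both. -/
noncomputable def emb : Mark K M N ⊕ SiteMark K N → Mark K M (N + 1) := Sum.elim embOld embNew

lemma measurable_embOld : Measurable (embOld : Mark K M N → Mark K M (N + 1)) := by
  refine measurable_fun_sum ?_ ?_
  · exact measurable_inl.comp (measurable_fst.prodMk
      ((Measurable.of_discrete (f := oldSites (N := N) (k := K))).comp measurable_snd))
  · intro s hs
    refine MeasurableSpace.measurableSet_iInf.2 fun i => ?_
    exact ((measurable_pertInj (K := K) (N := N + 1) i).comp
      ((Measurable.of_discrete (f := oldSites (N := N) (k := ar i))).comp measurable_fst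
        |>.prodMk measurable_snd)) hs

lemma measurable_embNew : Measurable (embNew : SiteMark K N → Mark K M (N + 1)) := by
  refine measurable_inl.comp ((measurable_fst.comp measurable_fst).prodMk ?_)
  exact (Measurable.of_discrete (f := newSites (N := N) (k := K))).comp
    ((measurable_snd.comp measurable_fst).prodMk measurable_snd)

lemma measurable_emb : Measurable (emb : Mark K M N ⊕ SiteMark K N → Mark K M (N + 1)) :=
  measurable_fun_sum measurable_embOld measurable_embNew

/-- The marks of perturbing clauses. -/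
noncomputable def pertBd : Mark K M N → ℝ
  | Sum.inl _ => 0
  | Sum.inr ⟨i, _, g⟩ => gBd i g

lemma pertBd_le (c : Mark K M N) : |pertBd c| ≤ markBd c := by
  rcases c with cl | ⟨i, I, g⟩
  · simpa [pertBd, markBd] using tabBd_nonneg cl.1
  · exact le_of_eq (abs_of_nonneg (gBd_nonneg _ _))

lemma measurable_pertBd : Measurable (pertBd : Mark K M N → ℝ) := by
  refine measurable_fun_sum measurable_const ?_
  intro s hs
  refine MeasurableSpace.measurableSet_iInf.2 fun i => ?_
  have h : Measurable fun q : PertMark N (i : ℕ) => gBd i q.2 := by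
    unfold gBd; fun_prop
  exact h hs

lemma snoc_oldSites {k : ℕ} (σ : Conf N) (ε : Bool) (I : Fin k → Fin N) :
    (fun j => (Fin.snoc σ ε : Conf (N + 1)) (oldSites I j)) = fun j => σ (I j) :=
  funext fun j => Fin.snoc_castSucc (α := fun _ => Bool) ε σ (I j)

lemma snoc_newSites {k : ℕ} (σ : Conf N) (ε : Bool) (l : Fin k) (I : Fin k → Fin N) :
    (fun j => (Fin.snoc σ ε : Conf (N + 1)) (newSites (l, I) j)) =
      Function.update (fun j => σ (I j)) l ε := by
  funext j
  rcases eq_or_ne j l with rfl | h
  · rw [newSites, Function.update_self, Function.update_self,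
      Fin.snoc_last (α := fun _ => Bool) ε σ]
  · rw [newSites, Function.update_of_ne h, Function.update_of_ne h]
    exact Fin.snoc_castSucc (α := fun _ => Bool) ε σ (I j)

/-- The potentials differ by the change of strength only. -/
lemma abs_emb_pot_sub {x : Par M} (hx : ∀ b, |x b| ≤ 2) (c : Mark K M N ⊕ SiteMark K N) (σ : Conf N)
    (ε : Bool) :
    |markPot x (emb c) (Fin.snoc σ ε) - joinPot (markPot x) sitePot c (σ, ε)| ≤
      Sum.elim (fun d => 2 * |betaN (N + 1) - betaN N| * pertBd d) (fun _ => 0) c := by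
  rcases c with (cl | ⟨i, I, g⟩) | d
  · simp [emb, embOld, markPot, joinPot, snoc_oldSites, pertBd]
  · simp only [emb, embOld, markPot, joinPot, Sum.elim_inl, pertBd, snoc_oldSites]
    rw [add_sub_add_left_eq_sub, ← sum_sub_distrib]
    refine (abs_sum_le_sum_abs _ _).trans ?_
    have hbd : ∑ B, (2 * |betaN (N + 1) - betaN N| * (2 * (|g B| + 1))) ≤
        2 * |betaN (N + 1) - betaN N| * gBd i g := by
      rw [← mul_sum, gBd, ← mul_sum]
      exact mul_le_mul_of_nonneg_left (le_add_of_nonneg_left (tabBd_nonneg _)) (by positivity)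
    refine le_trans (sum_le_sum fun B _ => ?_) hbd
    set a := betaN (N + 1)
    set b := betaN N
    have hab : |a ^ 2 - b ^ 2| ≤ 2 * |a - b| := by
      rw [sq_sub_sq, abs_mul]
      refine mul_le_mul_of_nonneg_right ?_ (abs_nonneg _)
      rw [abs_of_nonneg (add_nonneg (betaN_nonneg _) (betaN_nonneg _))]
      linarith [betaN_le_one N, betaN_le_one (N + 1)]
    rw [← sub_mul, abs_mul, abs_chi, mul_one,
      show x (⟨i, B⟩, false) * a * g B + x (⟨i, B⟩, true) * a ^ 2 -
          (x (⟨i, B⟩, false) * b * g B + x (⟨i, B⟩, true) * b ^ 2) =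
        x (⟨i, B⟩, false) * (a - b) * g B + x (⟨i, B⟩, true) * (a ^ 2 - b ^ 2) by ring]
    refine (abs_add_le _ _).trans ?_
    rw [abs_mul, abs_mul, abs_mul]
    have h1 : |x (⟨i, B⟩, false)| * |a - b| * |g B| ≤ 2 * |a - b| * |g B| := by gcongr; exact hx _
    have h2 : |x (⟨i, B⟩, true)| * |a ^ 2 - b ^ 2| ≤ 2 * (2 * |a - b|) :=
      mul_le_mul (hx _) hab (abs_nonneg _) zero_le_two
    nlinarith [mul_nonneg (abs_nonneg (a - b)) (abs_nonneg (g B))]
  · simp [emb, embNew, markPot, joinPot, sitePot, snoc_newSites]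

variable [NeZero N] {B0 : ℝ} {η : Measure ℝ} [IsProbabilityMeasure η]

omit [NeZero N] in
lemma measurePreserving_snoc :
    MeasurePreserving (fun q : (Fin N → ℝ) × ℝ => (Fin.snoc q.1 q.2 : Fin (N + 1) → ℝ))
      ((Measure.pi fun _ : Fin N => η).prod η) (Measure.pi fun _ : Fin (N + 1) => η) := by
  have h := ((measurePreserving_piFinSuccAbove (fun _ : Fin (N + 1) => η) (Fin.last N)).symm
    (MeasurableEquiv.piFinSuccAbove (fun _ => ℝ) (Fin.last N))).comp
      (Measure.measurePreserving_swap (μ := Measure.pi fun _ : Fin N => η) (ν := η))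
  convert h using 1
  funext q
  simp [MeasurableEquiv.piFinSuccAbove_symm_apply, Fin.insertNth_last', Fin.insertNthEquiv]

omit [NeZero N] in
lemma field_snoc (h : Fin N → ℝ) (hn : ℝ) (σ : Conf N) (ε : Bool) :
    field (Fin.snoc h hn : Fin (N + 1) → ℝ) (Fin.snoc σ ε) = field h σ + hn * spin ε := by
  simp [field, Fin.sum_univ_castSucc]

omit [NeZero N] in
/-- The cavity system inside the system of `N + 1` sites. -/
theorem abs_meanLz_emb_sub (hη : ∀ᵐ h ∂η, |h| ≤ B0) {x : Par M} (hx : ∀ b, |x b| ≤ 2)
    (a : Cfg (Mark K M N ⊕ SiteMark K N)) :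
    |meanLz η x (cmap emb a) - avgLz (joinPot (markPot x) sitePot) (joinBase siteBase)
        ((Measure.pi fun _ : Fin N => η).prod η) a| ≤
      Cfg.sum (Sum.elim (fun d => 2 * |betaN (N + 1) - betaN N| * pertBd d) fun _ => 0) a := by
  set π := (Measure.pi fun _ : Fin N => η).prod η
  have hlm : Measurable fun h' : Fin (N + 1) → ℝ => lz (markPot x) (field h') (cmap emb a) :=
    (Finset.measurable_sum _ fun σ _ => (measurable_const.add (measurable_field σ)).exp).log
  rw [meanLz, avgLz, ← (measurePreserving_snoc (η := η)).map_eq,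
    integral_map (measurePreserving_snoc (N := N) (η := η)).measurable.aemeasurable hlm.aestronglyMeasurable, avgLz]
  have hi1 : Integrable (fun h' => lz (markPot x) (field h') (cmap emb a))
      (Measure.pi fun _ : Fin (N + 1) => η) :=
    integrable_lz (abs_markPot_le hx) measurable_field (ae_field_le hη) _
  have hpot : ∀ c s, |joinPot (K := K) (markPot x) sitePot c s| ≤
      Sum.elim markBd (fun d : SiteMark K N => tabBd d.1.1) c := fun c (s : Conf N × Bool) => by
    rcases c with c | c
    exacts [abs_markPot_le hx c _, abs_le_tabBd c.1.1 _]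
  have hi2 : Integrable (fun q => lz (joinPot (markPot x) sitePot) (joinBase siteBase q) a) π := by
    refine integrable_lz hpot (fun s => ?_) (Cb := (N : ℝ) * B0 + B0) ?_ _
    · exact ((measurable_field s.1).comp measurable_fst).add (measurable_snd.mul_const _)
    · have h1 := (Measure.quasiMeasurePreserving_fst (μ := Measure.pi fun _ : Fin N => η)
        (ν := η)).ae (ae_field_le hη)
      have h2 := (Measure.quasiMeasurePreserving_snd (μ := Measure.pi fun _ : Fin N => η)
        (ν := η)).ae hη
      filter_upwards [h1, h2] with q q1 q2 s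
      refine (abs_add_le _ _).trans (add_le_add (q1 _) ?_)
      rw [siteBase, abs_mul, abs_spin, mul_one]; exact q2
  have hi1' : Integrable
      (fun q : (Fin N → ℝ) × ℝ => lz (markPot x) (field (Fin.snoc q.1 q.2)) (cmap emb a)) π :=
    (measurePreserving_snoc (η := η)).integrable_comp_of_integrable hi1
  rw [← integral_sub hi1' hi2]
  suffices h : ∀ q : (Fin N → ℝ) × ℝ,
      ‖lz (markPot x) (field (Fin.snoc q.1 q.2)) (cmap emb a) -
          lz (joinPot (markPot x) sitePot) (joinBase siteBase q) a‖ ≤
        Cfg.sum (Sum.elim (fun d => 2 * |betaN (N + 1) - betaN N| * pertBd d) fun _ => 0) a by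
    simpa using norm_integral_le_of_norm_le_const (μ := π) (ae_of_all _ h)
  intro q
  rw [Real.norm_eq_abs]
  have e : lz (markPot x) (field (Fin.snoc q.1 q.2)) (cmap emb a) =
      Real.log (∑ s : Conf N × Bool, Real.exp (Cfg.sum (fun c => markPot x (emb c)
        (Fin.snoc s.1 s.2)) a + (field q.1 s.1 + q.2 * spin s.2))) := by
    rw [lz]
    refine congrArg Real.log ?_
    rw [← ((Equiv.prodComm (Conf N) Bool).trans (Fin.snocEquiv fun _ => Bool)).sum_comp]
    refine sum_congr rfl fun s _ => ?_
    simp [cfgSum_cmap, Fin.snocEquiv, field_snoc]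
  rw [e]
  refine abs_log_sum_exp_sub fun s => ?_
  rw [joinBase, siteBase, add_sub_add_right_eq_sub, Cfg.sum, Cfg.sum, ← sum_sub_distrib]
  exact (abs_sum_le_sum_abs _ _).trans (sum_le_sum fun k _ => abs_emb_pot_sub hx _ _ _)

end Vale.Agent.P168.ASS
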