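import Vale.Agent.P168.Fin.ASS.Pieces

/-!
P168: extra clauses and an extra spin raise the mean log-partition function by a mean log Gibbs average.
-/

namespace Vale.Agent.P168.ASS

open MeasureTheory ProbabilityTheory Finset

variable {K M N : ℕ} {E He B : Type} [Fintype E] [Nonempty E] [MeasurableSpace He] [MeasurableSpace B]

/-- The potential of the joint system. -/
def joinPot (pot : Mark K M N → Conf N → ℝ) (pb : B → Conf N × E → ℝ) :
    Mark K M N ⊕ B → Conf N × E → ℝ :=
  Sum.elim (fun c s => pot c s.1) pb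

/-- The base of the joint system. -/
def joinBase (be : He → E → ℝ) (q : (Fin N → ℝ) × He) (s : Conf N × E) : ℝ :=
  field q.1 s.1 + be q.2 s.2

/-- The intensity of the joint system. -/
noncomputable def joinLaw (lam : ℝ) (μ : Measure (Table K)) (d : ℝ) (νb : Measure B) :
    Measure (Mark K M N ⊕ B) :=
  (markLaw M N lam μ).map Sum.inl + (ENNReal.ofReal d • νb).map Sum.inr

/-- The weight of extra clauses and of the extra spin. -/
noncomputable def extraW (pb : B → Conf N × E → ℝ) (be : He → E → ℝ) (he : He) {n : ℕ}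
    (v : Fin n → B) (σ : Conf N) : ℝ :=
  ∑ e, Real.exp (∑ k, pb (v k) (σ, e) + be he e)

/-- The logarithm of the Gibbs average of the extra weight. -/
noncomputable def gain (x : Par M) (pb : B → Conf N × E → ℝ) (be : He → E → ℝ) (he : He) {n : ℕ}
    (v : Fin n → B) (ω : Dis K M N) : ℝ :=
  Real.log (∑ σ, Real.exp (pertHam x ω σ) * extraW pb be he v σ) - Real.log (pertZ x ω)

omit [MeasurableSpace He] [MeasurableSpace B] in
lemma extraW_pos (pb : B → Conf N × E → ℝ) (be : He → E → ℝ) (he : He) {n : ℕ} (v : Fin n → B)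
    (σ : Conf N) : 0 < extraW pb be he v σ :=
  sum_pos (fun _ _ => Real.exp_pos _) univ_nonempty

lemma log_pertZ_eq (x : Par M) (ω : Dis K M N) :
    Real.log (pertZ x ω) = lz (markPot x) (field ω.2) ω.1 := rfl

omit [Nonempty E] [MeasurableSpace He] [MeasurableSpace B] in
lemma lz_append (x : Par M) (pb : B → Conf N × E → ℝ) (be : He → E → ℝ) (a : Cfg (Mark K M N))
    (b : Cfg B) (q : (Fin N → ℝ) × He) :
    lz (joinPot (markPot x) pb) (joinBase be q) (Cfg.append (cmap Sum.inl a) (cmap Sum.inr b)) =
      Real.log (∑ σ, Real.exp (pertHam x (a, q.1) σ) * extraW pb be q.2 b.2 σ) := by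
  simp only [lz, extraW, mul_sum, Fintype.sum_prod_type, cfgSum_append, cfgSum_cmap, joinPot,
    Sum.elim_inl, Sum.elim_inr, joinBase]
  refine congrArg Real.log (sum_congr rfl fun σ _ => sum_congr rfl fun e _ => ?_)
  rw [← Real.exp_add]
  congr 1
  unfold pertHam field Cfg.sum
  ring

omit [MeasurableSpace He] [MeasurableSpace B] in
lemma abs_gain_le (x : Par M) {pb : B → Conf N × E → ℝ} {be : He → E → ℝ} {he : He} {ψ : B → ℝ}
    {Ce : ℝ} (hpb : ∀ c s, |pb c s| ≤ ψ c) (hbe : ∀ e, |be he e| ≤ Ce) {n : ℕ} (v : Fin n → B)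
    (ω : Dis K M N) :
    |gain x pb be he v ω| ≤ ∑ k, ψ (v k) + Ce + Real.log (Fintype.card E) := by
  have e1 : ∑ σ, Real.exp (pertHam x ω σ) * extraW pb be he v σ =
      ∑ s : Conf N × E, Real.exp (pertHam x ω s.1 + (∑ k, pb (v k) s + be he s.2)) := by
    simp only [Fintype.sum_prod_type, extraW, mul_sum, Real.exp_add]
  have e2 : Real.log (∑ s : Conf N × E, Real.exp (pertHam x ω s.1)) =
      Real.log (pertZ x ω) + Real.log (Fintype.card E) := by
    simp only [Fintype.sum_prod_type, sum_const, card_univ, nsmul_eq_mul, ← mul_sum]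
    rw [Real.log_mul (by exact_mod_cast Fintype.card_ne_zero)
      (sum_pos (fun σ _ => Real.exp_pos _) univ_nonempty).ne', add_comm]
    rfl
  have h := abs_log_sum_exp_sub
    (u := fun s : Conf N × E => pertHam x ω s.1 + (∑ k, pb (v k) s + be he s.2))
    (v := fun s => pertHam x ω s.1) (c := ∑ k, ψ (v k) + Ce) fun s => by
      rw [add_sub_cancel_left]
      exact (abs_add_le _ _).trans (add_le_add
        ((abs_sum_le_sum_abs _ _).trans (sum_le_sum fun k _ => hpb _ _)) (hbe _))
  rw [← e1, e2] at h
  have hc : 0 ≤ Real.log (Fintype.card E) := Real.log_nonneg (by exact_mod_cast Fintype.card_pos)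
  rw [gain, abs_le]
  rw [abs_le] at h
  constructor <;> linarith [h.1, h.2]

omit [Fintype E] [Nonempty E] [MeasurableSpace He] in
lemma measurable_joinPot (x : Par M) {pb : B → Conf N × E → ℝ}
    (hm : ∀ s, Measurable fun c => pb c s) (s : Conf N × E) :
    Measurable fun c : Mark K M N ⊕ B => joinPot (markPot x) pb c s :=
  measurable_fun_sum (measurable_markPot' x s.1) (hm s)

lemma measurable_pertHam (x : Par M) (σ : Conf N) :
    Measurable fun ω : Dis K M N => pertHam x ω σ :=
  ((measurable_cfgSum (measurable_markPot' x σ)).comp measurable_fst).add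
    ((measurable_field σ).comp measurable_snd)

omit [Nonempty E] in
lemma measurable_gain (x : Par M) {pb : B → Conf N × E → ℝ} {be : He → E → ℝ}
    (hm : ∀ s, Measurable fun c => pb c s) (hbm : ∀ e, Measurable fun he => be he e) (n : ℕ) :
    Measurable fun q : ((Fin n → B) × He) × Dis K M N => gain x pb be q.1.2 q.1.1 q.2 := by
  have h : ∀ σ, Measurable fun q : ((Fin n → B) × He) × Dis K M N =>
      Real.exp (pertHam x q.2 σ) * extraW pb be q.1.2 q.1.1 σ := fun σ => by
    refine ((measurable_pertHam x σ).comp measurable_snd).exp.mul ?_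
    refine Finset.measurable_sum _ fun e _ => (Measurable.add ?_ ?_).exp
    · exact Finset.measurable_sum _ fun k _ => (hm (σ, e)).comp
        ((measurable_pi_apply k).comp (measurable_fst.comp measurable_fst))
    · exact (hbm e).comp (measurable_snd.comp measurable_fst)
  exact (Finset.measurable_sum _ fun σ _ => h σ).log.sub
    ((Finset.measurable_sum _ fun σ _ => (measurable_pertHam x σ).exp).log.comp measurable_snd)

/-- The rearrangement `((b, e), (a, h)) ↦ ((a, b), (h, e))`. -/
lemma measurePreserving_rearrange {α β γ δ : Type} [MeasurableSpace α] [MeasurableSpace β]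
    [MeasurableSpace γ] [MeasurableSpace δ] (μa : Measure α) (μb : Measure β) (μc : Measure γ)
    (μd : Measure δ) [SFinite μa] [SFinite μb] [SFinite μc] [SFinite μd] :
    MeasurePreserving (fun q : (β × δ) × (α × γ) => ((q.2.1, q.1.1), (q.2.2, q.1.2)))
      ((μb.prod μd).prod (μa.prod μc)) ((μa.prod μb).prod (μc.prod μd)) := by
  have h1 := Measure.measurePreserving_swap (μ := μb.prod μd) (ν := μa.prod μc)
  have h2 := measurePreserving_prodAssoc μa μc (μb.prod μd)
  have h3 := (MeasurePreserving.id μa).prod
    ((measurePreserving_prodAssoc μc μb μd).symm MeasurableEquiv.prodAssoc)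
  have h4 := (MeasurePreserving.id μa).prod
    ((Measure.measurePreserving_swap (μ := μc) (ν := μb)).prod (MeasurePreserving.id μd))
  have h5 := (MeasurePreserving.id μa).prod (measurePreserving_prodAssoc μb μc μd)
  have h6 := (measurePreserving_prodAssoc μa μb (μc.prod μd)).symm MeasurableEquiv.prodAssoc
  exact h6.comp (h5.comp (h4.comp (h3.comp (h2.comp h1))))

variable [NeZero N] {B0 lam : ℝ} {μ : Measure (Table K)} {η : Measure ℝ}
  [IsProbabilityMeasure μ] [IsProbabilityMeasure η]

/-- The configuration of the joint system as two configurations. -/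
theorem joint_eq (hb : BoundedModel B0 μ η) {x : Par M} (hx : ∀ i, |x i| ≤ 2) {d : ℝ}
    {νb : Measure B} [IsProbabilityMeasure νb] {πe : Measure He} [IsProbabilityMeasure πe]
    {pb : B → Conf N × E → ℝ} {be : He → E → ℝ} (hm : ∀ s, Measurable fun c => pb c s)
    (hbm : ∀ e, Measurable fun he => be he e) {ψ : B → ℝ} (hψm : Measurable ψ)
    (hψ : Integrable ψ νb) (hpb : ∀ c s, |pb c s| ≤ ψ c) {Ce : ℝ}
    (hbe : ∀ᵐ he ∂πe, ∀ e, |be he e| ≤ Ce) :
    let Φ : (Cfg (Mark K M N) × Cfg B) × ((Fin N → ℝ) × He) → ℝ := fun q =>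
      lz (joinPot (markPot x) pb) (joinBase be q.2)
        (Cfg.append (cmap Sum.inl q.1.1) (cmap Sum.inr q.1.2))
    Integrable Φ (((pp (markLaw M N lam μ)).prod (pp (ENNReal.ofReal d • νb))).prod
        ((Measure.pi fun _ : Fin N => η).prod πe)) ∧
      ∫ a, avgLz (joinPot (markPot x) pb) (joinBase be)
          ((Measure.pi fun _ : Fin N => η).prod πe) a ∂pp (joinLaw lam μ d νb) =
        ∫ q, Φ q ∂((pp (markLaw M N lam μ)).prod (pp (ENNReal.ofReal d • νb))).prod
          ((Measure.pi fun _ : Fin N => η).prod πe) := by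
  set π := Measure.pi fun _ : Fin N => η
  set νa := markLaw M N lam μ
  set pp' := joinPot (K := K) (markPot x) pb
  set π' := π.prod πe
  have : IsFiniteMeasure νa := by rw [show νa = _ from markLaw_eq lam μ]; infer_instance
  have : IsFiniteMeasure (ENNReal.ofReal d • νb) := isFiniteMeasure_smul_ofReal νb d
  have hPa := isProbabilityMeasure_pp νa
  have hPb := isProbabilityMeasure_pp (ENNReal.ofReal d • νb)
  have hφa : Integrable (markBd : Mark K M N → ℝ) νa := by
    rw [show νa = _ from markLaw_eq lam μ]
    exact integrable_markBd_lawWith hb _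
  have hψb : Integrable ψ (ENNReal.ofReal d • νb) := hψ.smul_measure ENNReal.ofReal_ne_top
  let φ : Mark K M N ⊕ B → ℝ := Sum.elim markBd ψ
  have hφm : Measurable φ := measurable_fun_sum measurable_markBd hψm
  have hpot : ∀ c s, |pp' c s| ≤ φ c := fun c s => by
    rcases c with c | c
    exacts [abs_markPot_le hx c _, hpb c s]
  have hbase : ∀ s : Conf N × E, Measurable fun q : (Fin N → ℝ) × He => joinBase be q s := fun s =>
    ((measurable_field s.1).comp measurable_fst).add ((hbm s.2).comp measurable_snd)
  have hCb : ∀ᵐ q ∂π', ∀ s, |joinBase be q s| ≤ N * B0 + Ce := by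
    have h1 := (Measure.quasiMeasurePreserving_fst (μ := π) (ν := πe)).ae (ae_field_le hb.2)
    have h2 := (Measure.quasiMeasurePreserving_snd (μ := π) (ν := πe)).ae hbe
    filter_upwards [h1, h2] with q q1 q2 s
    exact (abs_add_le _ _).trans (add_le_add (q1 _) (q2 _))
  have hj : Integrable φ (joinLaw lam μ d νb) := by
    refine Integrable.add_measure ?_ ?_
    · exact (integrable_map_measure hφm.aestronglyMeasurable measurable_inl.aemeasurable).2 hφa
    · exact (integrable_map_measure hφm.aestronglyMeasurable measurable_inr.aemeasurable).2 hψb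
  have hF := measurable_avgLz (π := π') (measurable_joinPot (K := K) (N := N) x hm) hbase
  have hFi : Integrable (avgLz pp' (joinBase be) π') (pp (joinLaw lam μ d νb)) := by
    have : IsFiniteMeasure (joinLaw (M := M) (N := N) lam μ d νb) := by
      unfold joinLaw; infer_instance
    exact integrable_avgLz (measurable_joinPot x hm) hpot hbase hCb hj
  unfold joinLaw at hFi ⊢
  rw [integral_pp_add _ _ hF avgLz_symm hFi, pp_map νa measurable_inl,
    pp_map (ENNReal.ofReal d • νb) measurable_inr]
  set P1 := pp νa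
  set P2 := pp (ENNReal.ofReal d • νb)
  let app : Cfg (Mark K M N) × Cfg B → Cfg (Mark K M N ⊕ B) := fun q =>
    Cfg.append (cmap Sum.inl q.1) (cmap Sum.inr q.2)
  let Φ : (Cfg (Mark K M N) × Cfg B) × ((Fin N → ℝ) × He) → ℝ := fun q =>
    lz pp' (joinBase be q.2) (app q.1)
  have hsum : ∀ q, Cfg.sum φ (app q) = Cfg.sum markBd q.1 + Cfg.sum ψ q.2 := fun q => by
    simp only [app, cfgSum_append, cfgSum_cmap]
    rfl
  have hΦm : Measurable Φ := by
    have h : ∀ s, Measurable fun q : Cfg (Mark K M N) × Cfg B =>
        Cfg.sum (fun c => pp' c s) (app q) := fun s => by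
      simp only [app, cfgSum_append, cfgSum_cmap]
      exact ((measurable_cfgSum (measurable_markPot' x s.1)).comp measurable_fst).add
        ((measurable_cfgSum (hm s)).comp measurable_snd)
    exact (Finset.measurable_sum _ fun s _ =>
      (((h s).comp measurable_fst).add ((hbase s).comp measurable_snd)).exp).log
  have hS : Integrable (fun q : Cfg (Mark K M N) × Cfg B => Cfg.sum φ (app q)) (P1.prod P2) := by
    simp only [hsum]
    exact ((integral_sum νa hφa).1.comp_fst P2).add ((integral_sum _ hψb).1.comp_snd P1)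
  have hΦi : Integrable Φ ((P1.prod P2).prod π') := by
    refine (((hS.comp_fst π').add (integrable_const (↑N * B0 + Ce))).add
      (integrable_const (Real.log (Fintype.card (Conf N × E))))).mono' hΦm.aestronglyMeasurable ?_
    filter_upwards [(Measure.quasiMeasurePreserving_snd (μ := P1.prod P2) (ν := π')).ae hCb]
      with q hq
    exact abs_lz_le hpot hq _
  have hGm : Measurable fun q : Cfg (Mark K M N) × Cfg B => avgLz pp' (joinBase be) π' (app q) :=
    hΦm.stronglyMeasurable.integral_prod_right'.measurable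
  have hstep : ∫ a, ∫ b, avgLz pp' (joinBase be) π' (Cfg.append a b) ∂(P2.map (cmap Sum.inr))
      ∂(P1.map (cmap Sum.inl)) = ∫ q, Φ q ∂(P1.prod P2).prod π' := by
    rw [integral_prod _ hΦi]
    have e : (P1.map (cmap (Sum.inl : Mark K M N → Mark K M N ⊕ B))).prod
        (P2.map (cmap (Sum.inr : B → Mark K M N ⊕ B))) =
        (P1.prod P2).map (Prod.map (cmap Sum.inl) (cmap Sum.inr)) :=
      Measure.map_prod_map _ _ (measurable_cmap measurable_inl) (measurable_cmap measurable_inr)
    have hcm : Measurable (Prod.map (cmap (Sum.inl : Mark K M N → Mark K M N ⊕ B))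
        (cmap (Sum.inr : B → Mark K M N ⊕ B))) :=
      (measurable_cmap measurable_inl).prodMap (measurable_cmap measurable_inr)
    have hm2 : Measurable fun p : Cfg (Mark K M N ⊕ B) × Cfg (Mark K M N ⊕ B) =>
        avgLz pp' (joinBase be) π' (Cfg.append p.1 p.2) := by
      have h : ∀ s, Measurable fun p : Cfg (Mark K M N ⊕ B) × Cfg (Mark K M N ⊕ B) =>
          Cfg.sum (fun c => pp' c s) (Cfg.append p.1 p.2) := fun s => by
        simp only [cfgSum_append]
        exact ((measurable_cfgSum (measurable_joinPot x hm s)).comp measurable_fst).add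
          ((measurable_cfgSum (measurable_joinPot x hm s)).comp measurable_snd)
      have h' : Measurable fun q : (Cfg (Mark K M N ⊕ B) × Cfg (Mark K M N ⊕ B)) ×
          ((Fin N → ℝ) × He) => lz pp' (joinBase be q.2) (Cfg.append q.1.1 q.1.2) :=
        (Finset.measurable_sum _ fun s _ =>
          (((h s).comp measurable_fst).add ((hbase s).comp measurable_snd)).exp).log
      exact h'.stronglyMeasurable.integral_prod_right'.measurable
    have hi : Integrable (fun p => avgLz pp' (joinBase be) π' (Cfg.append p.1 p.2))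
        ((P1.map (cmap Sum.inl)).prod (P2.map (cmap Sum.inr))) := by
      rw [e]
      exact (integrable_map_measure hm2.aestronglyMeasurable hcm.aemeasurable).2 hΦi.integral_prod_left
    have := Measure.isProbabilityMeasure_map (μ := P1)
      (measurable_cmap (measurable_inl (α := Mark K M N) (β := B))).aemeasurable
    have := Measure.isProbabilityMeasure_map (μ := P2)
      (measurable_cmap (measurable_inr (α := Mark K M N) (β := B))).aemeasurable
    refine (integral_prod _ hi).symm.trans ?_
    rw [e, integral_map hcm.aemeasurable hm2.aestronglyMeasurable]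
    rfl
  exact ⟨hΦi, hstep⟩

/-- The mean of the joint system above that of the plain one. -/
theorem gap_eq (hb : BoundedModel B0 μ η) {x : Par M} (hx : ∀ i, |x i| ≤ 2) {d : ℝ} (hd : 0 ≤ d)
    {νb : Measure B} [IsProbabilityMeasure νb] {πe : Measure He} [IsProbabilityMeasure πe]
    {pb : B → Conf N × E → ℝ} {be : He → E → ℝ} (hm : ∀ s, Measurable fun c => pb c s)
    (hbm : ∀ e, Measurable fun he => be he e) {ψ : B → ℝ} (hψm : Measurable ψ)
    (hψ : Integrable ψ νb) (hpb : ∀ c s, |pb c s| ≤ ψ c) {Ce : ℝ}
    (hbe : ∀ᵐ he ∂πe, ∀ e, |be he e| ≤ Ce) :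
    ∫ a, avgLz (joinPot (markPot x) pb) (joinBase be)
          ((Measure.pi fun _ : Fin N => η).prod πe) a ∂pp (joinLaw lam μ d νb) -
        press μ η N (mainMean lam K N) x =
      poissonAvg d fun n => ∫ v, ∫ he, ∫ ω, gain x pb be he v ω ∂disLaw M N lam μ η ∂πe
        ∂Measure.pi fun _ : Fin n => νb := by
  obtain ⟨hΦi, hstep⟩ := joint_eq (lam := lam) (d := d) hb hx hm hbm hψm hψ hpb hbe
  rw [hstep]
  set π := Measure.pi fun _ : Fin N => η
  set π' := π.prod πe
  have : IsFiniteMeasure (markLaw M N lam μ) := by rw [markLaw_eq lam μ]; infer_instance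
  have : IsFiniteMeasure (ENNReal.ofReal d • νb) := isFiniteMeasure_smul_ofReal νb d
  have hPa := isProbabilityMeasure_pp (markLaw M N lam μ)
  have hPb := isProbabilityMeasure_pp (ENNReal.ofReal d • νb)
  have hφa : Integrable (markBd : Mark K M N → ℝ) (markLaw M N lam μ) := by
    rw [markLaw_eq lam μ]
    exact integrable_markBd_lawWith hb _
  set P1 := pp (markLaw M N lam μ)
  set P2 := pp (ENNReal.ofReal d • νb)
  set Φ : (Cfg (Mark K M N) × Cfg B) × ((Fin N → ℝ) × He) → ℝ := fun q =>
    lz (joinPot (markPot x) pb) (joinBase be q.2)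
      (Cfg.append (cmap Sum.inl q.1.1) (cmap Sum.inr q.1.2)) with hΦd
  have hmp := measurePreserving_rearrange P1 P2 π πe
  let g : (Cfg B × He) × Dis K M N → ℝ := fun q => gain x pb be q.1.2 q.1.1.2 q.2
  let lZ : (Cfg B × He) × Dis K M N → ℝ := fun q => lz (markPot x) (field q.2.2) q.2.1
  have hfield := ae_field_le (N := N) hb.2
  have hlm : Measurable fun ω : Dis K M N => lz (markPot x) (field ω.2) ω.1 :=
    (Finset.measurable_sum _ fun σ _ => (measurable_pertHam x σ).exp).log
  have hlω : Integrable (fun ω : Dis K M N => lz (markPot x) (field ω.2) ω.1) (P1.prod π) := by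
    refine ((((integral_sum (markLaw M N lam μ) hφa).1.comp_fst π).add (integrable_const (↑N * B0))).add
      (integrable_const (Real.log (Fintype.card (Conf N))))).mono' hlm.aestronglyMeasurable ?_
    filter_upwards [(Measure.quasiMeasurePreserving_snd (μ := P1) (ν := π)).ae hfield] with ω hω
    exact abs_lz_le (abs_markPot_le hx) hω _
  have hl : Integrable lZ ((P2.prod πe).prod (P1.prod π)) := hlω.comp_snd _
  have hg : g = fun q => Φ ((q.2.1, q.1.1), (q.2.2, q.1.2)) - lZ q := by
    funext q
    simp only [g, hΦd, lZ, lz_append, gain, log_pertZ_eq]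
  have hgi : Integrable g ((P2.prod πe).prod (P1.prod π)) := by
    rw [hg]
    exact ((hmp.integrable_comp hΦi.aestronglyMeasurable).2 hΦi).sub hl
  clear_value Φ
  have hpress : press μ η N (mainMean lam K N) x =
      ∫ ω : Dis K M N, lz (markPot x) (field ω.2) ω.1 ∂P1.prod π := by
    rw [integral_prod _ hlω]; rfl
  have key : ∫ b, ∫ he, ∫ ω, gain x pb be he b.2 ω ∂P1.prod π ∂πe ∂P2 =
      ∫ q, Φ q ∂(P1.prod P2).prod π' - press μ η N (mainMean lam K N) x := by
    calc ∫ b, ∫ he, ∫ ω, gain x pb be he b.2 ω ∂P1.prod π ∂πe ∂P2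
        = ∫ q, g q ∂(P2.prod πe).prod (P1.prod π) := by
          rw [integral_prod _ hgi, integral_prod _ hgi.integral_prod_left]
      _ = _ := by
          rw [hg]
          refine (integral_sub (f := fun q => Φ ((q.2.1, q.1.1), (q.2.2, q.1.2)))
            ((hmp.integrable_comp hΦi.aestronglyMeasurable).2 hΦi) hl).trans ?_
          congr 1
          · rw [← hmp.map_eq]
            refine (integral_map hmp.measurable.aemeasurable ?_).symm
            rw [hmp.map_eq]; exact hΦi.aestronglyMeasurable
          · rw [hpress]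
            exact (integral_fun_snd (fun ω : Dis K M N => lz (markPot x) (field ω.2) ω.1)).trans
              (by simp)
  rw [← key, integral_pp_smul νb hd]
  · rfl
  · exact hgi.integral_prod_left.integral_prod_left

end Vale.Agent.P168.ASS
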