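import Vale.Agent.P168.Pois

/-!
P168: log-partition functions of finite systems driven by Poisson configurations.
-/

namespace Vale.Agent.P168.ASS

open MeasureTheory Finset

variable {M M' S S' H P γ : Type} [MeasurableSpace M] [MeasurableSpace M'] [MeasurableSpace H]
  [MeasurableSpace P] [MeasurableSpace γ]

lemma cfg_preimage_mk {s : Set (Cfg M)} (hs : ∀ n, MeasurableSet (Sigma.mk n ⁻¹' s)) :
    MeasurableSet s :=
  MeasurableSpace.measurableSet_iInf.2 hs

lemma measurable_mk (n : ℕ) : Measurable (fun v : Fin n → M => (⟨n, v⟩ : Cfg M)) :=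
  fun _ hs => MeasurableSpace.measurableSet_iInf.1 hs n

lemma measurable_of_mk {f : Cfg M → γ} (h : ∀ n, Measurable fun v : Fin n → M => f ⟨n, v⟩) :
    Measurable f :=
  fun _ hs => cfg_preimage_mk fun n => h n hs

lemma measurableEmbedding_sigmaMk {ι : Type} {β : ι → Type} [∀ i, MeasurableSpace (β i)] (i : ι) :
    MeasurableEmbedding (Sigma.mk i : β i → Σ j, β j) where
  injective := sigma_mk_injective
  measurable := fun _ hs => MeasurableSpace.measurableSet_iInf.1 hs i
  measurableSet_image' := fun s hs => MeasurableSpace.measurableSet_iInf.2 fun j => by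
    change MeasurableSet (Sigma.mk j ⁻¹' (Sigma.mk i '' s))
    rcases eq_or_ne j i with rfl | hne
    · rwa [sigma_mk_injective.preimage_image]
    · convert MeasurableSet.empty
      ext v
      simp only [Set.mem_preimage, Set.mem_image, Set.mem_empty_iff_false, iff_false, not_exists,
        not_and]
      exact fun w _ he => hne (congrArg Sigma.fst he).symm

lemma measurable_prod_sigma {ι : Type} [Countable ι] {β : ι → Type} [∀ i, MeasurableSpace (β i)]
    {f : P × (Σ i, β i) → γ} (h : ∀ i, Measurable fun q : P × β i => f (q.1, ⟨i, q.2⟩)) :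
    Measurable f := by
  intro s hs
  have e : f ⁻¹' s = ⋃ i, (fun q : P × β i => (q.1, (⟨i, q.2⟩ : Σ j, β j))) ''
      ((fun q : P × β i => f (q.1, ⟨i, q.2⟩)) ⁻¹' s) := by
    ext ⟨p, i, v⟩
    simp only [Set.mem_preimage, Set.mem_iUnion, Set.mem_image, Prod.exists]
    constructor
    · exact fun hv => ⟨i, p, v, hv, rfl⟩
    · rintro ⟨j, p', w, hw, he⟩
      simp only [Prod.mk.injEq] at he
      rwa [← he.1, ← he.2]
  rw [e]
  exact MeasurableSet.iUnion fun i =>
    (MeasurableEmbedding.id.prodMap (measurableEmbedding_sigmaMk i)).measurableSet_image.2 (h i hs)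

lemma embedding_inl {α β : Type} [MeasurableSpace α] [MeasurableSpace β] :
    MeasurableEmbedding (Sum.inl : α → α ⊕ β) :=
  ⟨Sum.inl_injective, measurable_inl, fun _ hs => measurableSet_inl_image.2 hs⟩

lemma embedding_inr {α β : Type} [MeasurableSpace α] [MeasurableSpace β] :
    MeasurableEmbedding (Sum.inr : β → α ⊕ β) :=
  ⟨Sum.inr_injective, measurable_inr, fun _ hs => measurableSet_inr_image.2 hs⟩

lemma measurable_prod_sum {α β : Type} [MeasurableSpace α] [MeasurableSpace β] {f : P × (α ⊕ β) → γ}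
    (hl : Measurable fun q : P × α => f (q.1, Sum.inl q.2))
    (hr : Measurable fun q : P × β => f (q.1, Sum.inr q.2)) : Measurable f := by
  intro s hs
  have e : f ⁻¹' s =
      (fun q : P × α => (q.1, (Sum.inl q.2 : α ⊕ β))) '' ((fun q : P × α => f (q.1, Sum.inl q.2)) ⁻¹' s) ∪
      (fun q : P × β => (q.1, (Sum.inr q.2 : α ⊕ β))) '' ((fun q : P × β => f (q.1, Sum.inr q.2)) ⁻¹' s) := by
    ext ⟨p, a | b⟩ <;> simp
  rw [e]
  exact ((MeasurableEmbedding.id.prodMap embedding_inl).measurableSet_image.2 (hl hs)).union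
    ((MeasurableEmbedding.id.prodMap embedding_inr).measurableSet_image.2 (hr hs))

/-- The image of a configuration. -/
def cmap (f : M → M') (a : Cfg M) : Cfg M' := ⟨a.1, fun i => f (a.2 i)⟩

lemma measurable_cmap {f : M → M'} (hf : Measurable f) : Measurable (cmap f) :=
  measurable_of_mk fun n => (measurable_mk n).comp
    (measurable_pi_lambda _ fun i => hf.comp (measurable_pi_apply i))

lemma pp_map (ν : Measure M) [IsFiniteMeasure ν] {f : M → M'} (hf : Measurable f) :
    pp (ν.map f) = (pp ν).map (cmap f) := by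
  unfold pp
  rw [Measure.map_sum (measurable_cmap hf).aemeasurable]
  congr 1
  funext n
  rw [Measure.map_smul, Measure.map_map (measurable_cmap hf) (measurable_mk n)]
  congr 1
  · simp [map_measureReal_apply hf MeasurableSet.univ]
  · rw [← Measure.pi_map_pi (μ := fun _ : Fin n => ν) (f := fun _ => f) (fun _ => hf.aemeasurable)]
    exact Measure.map_map (measurable_mk n)
      (measurable_pi_lambda _ fun i => hf.comp (measurable_pi_apply i))

omit [MeasurableSpace M] [MeasurableSpace M'] in
lemma cfgSum_cmap (f : M → M') (φ : M' → ℝ) (a : Cfg M) :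
    Cfg.sum φ (cmap f a) = Cfg.sum (fun c => φ (f c)) a := rfl

omit [MeasurableSpace M] in
lemma cfgSum_append (φ : M → ℝ) (a b : Cfg M) :
    Cfg.sum φ (Cfg.append a b) = Cfg.sum φ a + Cfg.sum φ b := by
  show ∑ i : Fin (a.1 + b.1), φ (Fin.append a.2 b.2 i) = _
  rw [Fin.sum_univ_add]
  simp [Cfg.sum]

omit [MeasurableSpace M] in
lemma cfgSum_cons (φ : M → ℝ) (c : M) (a : Cfg M) :
    Cfg.sum φ (Cfg.cons c a) = φ c + Cfg.sum φ a := by
  show ∑ i : Fin (a.1 + 1), φ (Fin.cons (α := fun _ => M) c a.2 i) = _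
  rw [Fin.sum_univ_succ]
  simp [Cfg.sum]

omit [MeasurableSpace M] in
lemma abs_cfgSum_le {φ ψ : M → ℝ} (h : ∀ c, |φ c| ≤ ψ c) (a : Cfg M) :
    |Cfg.sum φ a| ≤ Cfg.sum ψ a :=
  (abs_sum_le_sum_abs _ _).trans (sum_le_sum fun _ _ => h _)

lemma measurable_cfgSum {φ : M → ℝ} (hφ : Measurable φ) : Measurable (Cfg.sum φ) :=
  measurable_of_mk fun n => by
    show Measurable fun v : Fin n → M => ∑ i, φ (v i)
    exact Finset.measurable_sum _ fun i _ => hφ.comp (measurable_pi_apply i)

lemma measurable_cfgSum_prod {φ : P → M → ℝ} (hφ : Measurable (Function.uncurry φ)) :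
    Measurable fun q : P × Cfg M => Cfg.sum (φ q.1) q.2 :=
  measurable_prod_sigma fun n => by
    show Measurable fun q : P × (Fin n → M) => ∑ i, φ q.1 (q.2 i)
    exact Finset.measurable_sum _ fun i _ =>
      hφ.comp (measurable_fst.prodMk ((measurable_pi_apply i).comp measurable_snd))

/-- Two logarithms of sums of exponentials of close exponents are close. -/
lemma abs_log_sum_exp_sub {S : Type} [Fintype S] [Nonempty S] {u v : S → ℝ} {c : ℝ}
    (h : ∀ s, |u s - v s| ≤ c) :
    |Real.log (∑ s, Real.exp (u s)) - Real.log (∑ s, Real.exp (v s))| ≤ c := by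
  have pos : ∀ w : S → ℝ, 0 < ∑ s, Real.exp (w s) := fun w =>
    sum_pos (fun s _ => Real.exp_pos _) univ_nonempty
  have key : ∀ u v : S → ℝ, (∀ s, |u s - v s| ≤ c) →
      Real.log (∑ s, Real.exp (u s)) ≤ c + Real.log (∑ s, Real.exp (v s)) := fun u v h => by
    rw [← Real.log_exp c, ← Real.log_mul (Real.exp_pos _).ne' (pos v).ne']
    refine Real.log_le_log (pos u) ?_
    rw [mul_sum]
    refine sum_le_sum fun s _ => ?_
    rw [← Real.exp_add]
    exact Real.exp_le_exp.2 (by linarith [(abs_le.1 (h s)).2])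
  rw [abs_le]
  exact ⟨by linarith [key v u fun s => by rw [abs_sub_comm]; exact h s], by linarith [key u v h]⟩

lemma abs_log_sum_exp_le {S : Type} [Fintype S] [Nonempty S] {u : S → ℝ} {c : ℝ}
    (h : ∀ s, |u s| ≤ c) :
    |Real.log (∑ s, Real.exp (u s))| ≤ c + Real.log (Fintype.card S) := by
  have h1 := abs_log_sum_exp_sub (u := u) (v := fun _ => (0 : ℝ)) (c := c) fun s => by simpa using h s
  simp only [Real.exp_zero, sum_const, card_univ, nsmul_eq_mul, mul_one] at h1
  have h2 : 0 ≤ Real.log (Fintype.card S) := Real.log_nonneg (by exact_mod_cast Fintype.card_pos)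
  rw [abs_le] at h1 ⊢
  constructor <;> linarith [h1.1, h1.2]

/-- The log-partition function of a configuration. -/
noncomputable def lz [Fintype S] (pot : M → S → ℝ) (base : S → ℝ) (a : Cfg M) : ℝ :=
  Real.log (∑ s, Real.exp (Cfg.sum (fun c => pot c s) a + base s))

/-- The log-partition function averaged over the base. -/
noncomputable def avgLz [Fintype S] (pot : M → S → ℝ) (base : H → S → ℝ) (π : Measure H)
    (a : Cfg M) : ℝ :=
  ∫ h, lz pot (base h) a ∂π

section

variable [Fintype S] [Nonempty S] {pot : M → S → ℝ} {base : H → S → ℝ} {π : Measure H}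
  [IsProbabilityMeasure π] {φ : M → ℝ} {Cb : ℝ}

omit [MeasurableSpace M] in
lemma abs_lz_le (hpot : ∀ c s, |pot c s| ≤ φ c) {b : S → ℝ} (hb : ∀ s, |b s| ≤ Cb) (a : Cfg M) :
    |lz pot b a| ≤ Cfg.sum φ a + Cb + Real.log (Fintype.card S) :=
  abs_log_sum_exp_le fun s => (abs_add_le _ _).trans
    (add_le_add (abs_cfgSum_le (fun c => hpot c s) a) (hb s))

omit [Nonempty S] in
lemma measurable_lz_prod {P : Type} [MeasurableSpace P] {pot : P → M → S → ℝ}
    (hpot : ∀ s, Measurable fun q : P × M => pot q.1 q.2 s) (hbase : ∀ s, Measurable fun h => base h s) :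
    Measurable fun q : (P × Cfg M) × H => lz (pot q.1.1) (base q.2) q.1.2 := by
  refine Real.measurable_log.comp (Finset.measurable_sum _ fun s _ => Real.measurable_exp.comp ?_)
  exact ((measurable_cfgSum_prod (φ := fun p c => pot p c s) (hpot s)).comp measurable_fst).add
    ((hbase s).comp measurable_snd)

omit [Nonempty S] in
lemma measurable_avgLz_prod {P : Type} [MeasurableSpace P] {pot : P → M → S → ℝ}
    (hpot : ∀ s, Measurable fun q : P × M => pot q.1 q.2 s) (hbase : ∀ s, Measurable fun h => base h s) :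
    Measurable fun q : P × Cfg M => avgLz (pot q.1) base π q.2 :=
  ((measurable_lz_prod hpot hbase).stronglyMeasurable.integral_prod_right).measurable

omit [Nonempty S] in
lemma measurable_avgLz (hpot : ∀ s, Measurable fun c => pot c s)
    (hbase : ∀ s, Measurable fun h => base h s) : Measurable (avgLz pot base π) := by
  have hl : Measurable fun q : Cfg M × H => lz pot (base q.2) q.1 := by
    refine Real.measurable_log.comp (Finset.measurable_sum _ fun s _ => Real.measurable_exp.comp ?_)
    exact ((measurable_cfgSum (hpot s)).comp measurable_fst).add ((hbase s).comp measurable_snd)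
  exact hl.stronglyMeasurable.integral_prod_right'.measurable

omit [Nonempty S] [IsProbabilityMeasure π] [MeasurableSpace M] in
lemma avgLz_symm : CfgSymm (avgLz pot base π) := fun n e v => by
  have : ∀ s, Cfg.sum (fun c => pot c s) ⟨n, v ∘ e⟩ = Cfg.sum (fun c => pot c s) ⟨n, v⟩ :=
    fun s => Equiv.sum_comp e fun i => pot (v i) s
  simp only [avgLz, lz, this]

omit [MeasurableSpace M] in
lemma integrable_lz (hpot : ∀ c s, |pot c s| ≤ φ c)
    (hbase : ∀ s, Measurable fun h => base h s) (hCb : ∀ᵐ h ∂π, ∀ s, |base h s| ≤ Cb) (a : Cfg M) :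
    Integrable (fun h => lz pot (base h) a) π := by
  refine (integrable_const (Cfg.sum φ a + Cb + Real.log (Fintype.card S))).mono'
    (Measurable.aestronglyMeasurable ?_) ?_
  · exact Real.measurable_log.comp (Finset.measurable_sum _ fun s _ =>
      Real.measurable_exp.comp (measurable_const.add (hbase s)))
  · filter_upwards [hCb] with h hh
    exact abs_lz_le hpot hh a

omit [MeasurableSpace M] in
lemma abs_avgLz_le (hpot : ∀ c s, |pot c s| ≤ φ c)
    (hCb : ∀ᵐ h ∂π, ∀ s, |base h s| ≤ Cb) (a : Cfg M) :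
    |avgLz pot base π a| ≤ Cfg.sum φ a + Cb + Real.log (Fintype.card S) := by
  have h : ∀ᵐ h ∂π, ‖lz pot (base h) a‖ ≤ Cfg.sum φ a + Cb + Real.log (Fintype.card S) := by
    filter_upwards [hCb] with h hh
    exact abs_lz_le hpot hh a
  simpa [avgLz] using norm_integral_le_of_norm_le_const h

lemma integrable_avgLz {ν : Measure M} [IsFiniteMeasure ν]
    (hm : ∀ s, Measurable fun c => pot c s) (hpot : ∀ c s, |pot c s| ≤ φ c)
    (hbase : ∀ s, Measurable fun h => base h s)
    (hCb : ∀ᵐ h ∂π, ∀ s, |base h s| ≤ Cb) (hφ : Integrable φ ν) :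
    Integrable (avgLz pot base π) (pp ν) := by
  have := isProbabilityMeasure_pp ν
  exact (((integral_sum ν hφ).1.add (integrable_const Cb)).add
    (integrable_const (Real.log (Fintype.card S)))).mono'
      (measurable_avgLz hm hbase).aestronglyMeasurable (ae_of_all _ fun a => abs_avgLz_le hpot hCb a)

omit [MeasurableSpace M] in
lemma avgLz_incr (hpot : ∀ c s, |pot c s| ≤ φ c) (hbase : ∀ s, Measurable fun h => base h s)
    (hCb : ∀ᵐ h ∂π, ∀ s, |base h s| ≤ Cb) : CfgIncr (avgLz pot base π) φ := fun x a => by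
  rw [avgLz, avgLz, ← integral_sub (integrable_lz hpot hbase hCb _) (integrable_lz hpot hbase hCb _)]
  have h : ∀ᵐ h ∂π, ‖lz pot (base h) (Cfg.cons x a) - lz pot (base h) a‖ ≤ φ x :=
    ae_of_all _ fun h => abs_log_sum_exp_sub fun s => by
      rw [cfgSum_cons]
      simpa using hpot x s
  simpa using norm_integral_le_of_norm_le_const h

/-- Two intensities above a common one give close means. -/
lemma abs_integral_avgLz_sub {ν₀ a b : Measure M} [IsFiniteMeasure ν₀] [IsFiniteMeasure a]
    [IsFiniteMeasure b] (hm : ∀ s, Measurable fun c => pot c s) (hpot : ∀ c s, |pot c s| ≤ φ c)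
    (hbase : ∀ s, Measurable fun h => base h s) (hCb : ∀ᵐ h ∂π, ∀ s, |base h s| ≤ Cb)
    (h0 : Integrable φ ν₀) (ha : Integrable φ a) (hb : Integrable φ b) :
    |∫ ω, avgLz pot base π ω ∂pp (ν₀ + a) - ∫ ω, avgLz pot base π ω ∂pp (ν₀ + b)| ≤
      ∫ c, φ c ∂a + ∫ c, φ c ∂b := by
  have hF := measurable_avgLz (π := π) hm hbase
  have hi := avgLz_incr (π := π) hpot hbase hCb
  have h1 := abs_sub_le_coupling ν₀ a hF avgLz_symm h0 ha hi
  have h2 := abs_sub_le_coupling ν₀ b hF avgLz_symm h0 hb hi
  rw [abs_sub_comm] at h2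
  exact (abs_sub_le _ _ _).trans (add_le_add h1 h2)

end

end Vale.Agent.P168.ASS
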