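import Vale.Agent.P168.Fin.ASS.Gap

/-!
P168: the series of the cavity functional at a stage is a mean logarithm of a Gibbs average.
-/

namespace Vale.Agent.P168.ASS

open MeasureTheory ProbabilityTheory Finset

variable {K M N : ℕ}

/-- The Gibbs average of a positive weight in logarithmic form. -/
noncomputable def logAvg (x : Par M) (ω : Dis K M N) (w : Conf N → ℝ) : ℝ :=
  Real.log (∑ σ, Real.exp (pertHam x ω σ) * w σ) - Real.log (pertZ x ω)

lemma pertZ_pos (x : Par M) (ω : Dis K M N) : 0 < pertZ x ω :=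
  sum_pos (fun _ _ => Real.exp_pos _) univ_nonempty

lemma measurable_gibbsWeight (x : Par M) (σ : Conf N) :
    Measurable fun ω : Dis K M N => Real.exp (pertHam x ω σ) / pertZ x ω :=
  (measurable_pertHam x σ).exp.div
    (Finset.measurable_sum _ fun τ _ => (measurable_pertHam x τ).exp)

lemma sum_gibbsWeight (x : Par M) (ω : Dis K M N) :
    ∑ σ, Real.exp (pertHam x ω σ) / pertZ x ω = 1 := by
  rw [← sum_div]; exact div_self (pertZ_pos x ω).ne'

lemma gibbsWeight_nonneg (x : Par M) (ω : Dis K M N) (σ : Conf N) :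
    0 ≤ Real.exp (pertHam x ω σ) / pertZ x ω :=
  div_nonneg (Real.exp_pos _).le (pertZ_pos x ω).le

lemma sum_gibbs_prod {n : ℕ} (x : Par M) (ω : Dis K M N) :
    ∑ ρ : Fin n → Conf N, ∏ l, Real.exp (pertHam x ω (ρ l)) / pertZ x ω = 1 :=
  (Fintype.prod_sum fun (_ : Fin n) s => Real.exp (pertHam x ω s) / pertZ x ω).symm.trans
    (by simp [sum_gibbsWeight])

lemma abs_gibbs_le {n : ℕ} (x : Par M) (ω : Dis K M N) {G : (Fin n → Conf N) → ℝ}
    (hG : ∀ ρ, |G ρ| ≤ 1) : |gibbs x ω n G| ≤ 1 := by
  refine (abs_sum_le_sum_abs _ _).trans ((sum_le_sum fun ρ _ => ?_).trans_eq (sum_gibbs_prod x ω))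
  rw [abs_mul, abs_of_nonneg (prod_nonneg fun l _ => gibbsWeight_nonneg x ω _)]
  exact mul_le_of_le_one_right (prod_nonneg fun l _ => gibbsWeight_nonneg x ω _) (hG ρ)

lemma measurable_gibbs {n : ℕ} (x : Par M) (G : (Fin n → Conf N) → ℝ) :
    Measurable fun ω : Dis K M N => gibbs x ω n G :=
  Finset.measurable_sum _ fun _ _ =>
    (Finset.measurable_prod _ fun _ _ => measurable_gibbsWeight x _).mul_const _

variable [NeZero N] {lam : ℝ} {μ : Measure (Table K)} {η : Measure ℝ}
  [IsProbabilityMeasure μ] [IsProbabilityMeasure η]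

instance : IsProbabilityMeasure (disLaw M N lam μ η : Measure (Dis K M N)) := by
  have : IsFiniteMeasure (markLaw M N lam μ : Measure (Mark K M N)) := by
    rw [markLaw_eq lam μ]; infer_instance
  have := isProbabilityMeasure_pp (markLaw M N lam μ : Measure (Mark K M N))
  unfold disLaw; infer_instance

/-- Moments of a stage: a product over replicas becomes a power. -/
lemma sum_stageCol_prod (x : Par M) {m : ℕ} (n : ℕ) (f : (Fin m → Bool) → ℝ) :
    ∑ σ, stageCol lam μ η N x m n σ * ∏ l, f (σ l) =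
      ∫ ω, ∫ F, (∑ s, Real.exp (pertHam x ω s) / pertZ x ω * f (fun i => s (F i))) ^ n
        ∂sites N m ∂disLaw M N lam μ η := by
  let G : (Fin n → Fin m → Bool) → (Fin n → Conf N) → ℝ := fun σ ρ =>
    ∫ F, (if (∀ l i, ρ l (F i) = σ l i) then (1 : ℝ) else 0) ∂sites N m
  have hG : ∀ σ ρ, |G σ ρ| ≤ 1 := fun σ ρ => by
    have h : ∀ᵐ F ∂sites N m, ‖(if (∀ l i, ρ l (F i) = σ l i) then (1 : ℝ) else 0)‖ ≤ 1 :=
      ae_of_all _ fun F => by split_ifs <;> simp
    simpa using norm_integral_le_of_norm_le_const h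
  have hi : ∀ σ, Integrable (fun ω => gibbs x ω n (G σ) * ∏ l, f (σ l)) (disLaw M N lam μ η) :=
    fun σ => ((integrable_const (1 : ℝ)).mono' (measurable_gibbs x (G σ)).aestronglyMeasurable
      (ae_of_all _ fun ω => abs_gibbs_le x ω (hG σ))).mul_const _
  show ∑ σ, (∫ ω, gibbs x ω n (G σ) ∂disLaw M N lam μ η) * ∏ l, f (σ l) = _
  simp only [← integral_mul_const]
  rw [← integral_finsetSum _ fun σ _ => hi σ]
  refine integral_congr_ae (ae_of_all _ fun ω => ?_)
  set w : Conf N → ℝ := fun s => Real.exp (pertHam x ω s) / pertZ x ω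
  simp only [gibbs, G, sum_mul, integral_fintype Integrable.of_finite, smul_eq_mul]
  rw [sum_comm]
  simp only [mul_sum, sum_mul]
  refine (sum_congr rfl fun ρ _ => sum_comm).trans (sum_comm.trans (sum_congr rfl fun F _ => ?_))
  rw [Fintype.sum_pow, mul_sum]
  refine sum_congr rfl fun ρ _ => ?_
  rw [sum_eq_single fun l i => ρ l (F i)]
  · simp only [implies_true, if_true, mul_one, prod_mul_distrib]
    ring
  · intro σ _ hσ
    rw [if_neg fun h => hσ (funext fun l => funext fun i => (h l i).symm)]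
    ring
  · exact fun h => absurd (mem_univ _) h

/-- The series of the logarithm at a stage. -/
theorem logMom_stageCol (x : Par M) {m : ℕ} {W : (Fin m → Bool) → ℝ} (hW : ∀ τ, 0 < W τ) :
    logMom (stageCol lam μ η N x) W =
      ∫ ω, ∫ F, logAvg x ω (fun σ => W fun i => σ (F i)) ∂sites N m ∂disLaw M N lam μ η := by
  set c := ∑ τ, W τ with hc
  have hc0 : 0 < c := sum_pos (fun τ _ => hW τ) univ_nonempty
  obtain ⟨τ0, -, hτ0⟩ := exists_min_image univ W univ_nonempty
  set q := 1 - W τ0 / c
  let X : Dis K M N × (Fin m → Fin N) → ℝ := fun p =>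
    ∑ s, Real.exp (pertHam x p.1 s) / pertZ x p.1 * (1 - W (fun i => s (p.2 i)) / c)
  have hle : ∀ τ, W τ / c ≤ 1 := fun τ => by
    rw [div_le_one hc0]; exact single_le_sum (fun a _ => (hW a).le) (mem_univ τ)
  have hq0 : 0 ≤ q := by linarith [hle τ0]
  have hq1 : q < 1 := by linarith [div_pos (hW τ0) hc0]
  have hX0 : ∀ p, 0 ≤ X p := fun p =>
    sum_nonneg fun s _ => mul_nonneg (gibbsWeight_nonneg x _ _) (sub_nonneg.2 (hle _))
  have hXq : ∀ p, X p ≤ q := fun p => by
    calc X p ≤ ∑ s, Real.exp (pertHam x p.1 s) / pertZ x p.1 * q :=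
          sum_le_sum fun s _ => mul_le_mul_of_nonneg_left
            (sub_le_sub_left (div_le_div_of_nonneg_right (hτ0 _ (mem_univ _)) hc0.le) 1)
            (gibbsWeight_nonneg x _ _)
      _ = q := by rw [← sum_mul, sum_gibbsWeight, one_mul]
  have hXm : Measurable X :=
    measurable_from_prod_countable_left fun F =>
      Finset.measurable_sum _ fun s _ =>
        (measurable_gibbsWeight x s).mul_const (1 - W (fun i => s (F i)) / c)
  set P := (disLaw M N lam μ η : Measure (Dis K M N)).prod (sites N m)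
  have hlog : ∀ p, Real.log c + Real.log (1 - X p) =
      logAvg x p.1 fun σ => W fun i => σ (p.2 i) := fun p => by
    have hZ := pertZ_pos x p.1
    have hnum : 0 < ∑ σ, Real.exp (pertHam x p.1 σ) * W (fun i => σ (p.2 i)) :=
      sum_pos (fun σ _ => mul_pos (Real.exp_pos _) (hW _)) univ_nonempty
    have e : 1 - X p = (∑ σ, Real.exp (pertHam x p.1 σ) * W (fun i => σ (p.2 i))) /
        (pertZ x p.1 * c) := by
      simp only [X, mul_sub, mul_one, sum_sub_distrib, sum_gibbsWeight, sub_sub_cancel, sum_div]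
      exact sum_congr rfl fun s _ => by field_simp
    rw [logAvg, e, Real.log_div hnum.ne' (mul_pos hZ hc0).ne', Real.log_mul hZ.ne' hc0.ne']
    ring
  have hsum := MeasureTheory.hasSum_integral_of_dominated_convergence (μ := P)
    (F := fun (k : ℕ) p => X p ^ (k + 1) / ((k : ℝ) + 1)) (f := fun p => -Real.log (1 - X p))
    (bound := fun (k : ℕ) _ => q ^ (k + 1))
    (fun k => ((hXm.pow_const _).div_const _).aestronglyMeasurable)
    (fun k => ae_of_all _ fun p => by
      rw [Real.norm_eq_abs, abs_div, abs_pow, abs_of_nonneg (hX0 p),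
        abs_of_pos (by positivity : (0 : ℝ) < (k : ℝ) + 1)]
      exact (div_le_self (pow_nonneg (hX0 p) _) (by simp)).trans
        (pow_le_pow_left₀ (hX0 p) (hXq p) _))
    (ae_of_all _ fun _ => by
      simpa [pow_succ'] using (summable_geometric_of_lt_one hq0 hq1).mul_left q)
    (integrable_const _)
    (ae_of_all _ fun p => Real.hasSum_pow_div_log_of_abs_lt_one
      (by rw [abs_of_nonneg (hX0 p)]; exact (hXq p).trans_lt hq1))
  have hterm : ∀ k : ℕ, (∑ σ, stageCol lam μ η N x m (k + 1) σ * ∏ l, (1 - W (σ l) / c)) /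
      ((k : ℝ) + 1) = ∫ p, X p ^ (k + 1) / ((k : ℝ) + 1) ∂P := fun k => by
    rw [sum_stageCol_prod x (k + 1) fun τ => 1 - W τ / c, integral_div]
    congr 1
    refine (integral_prod _ ((integrable_const (1 : ℝ)).mono'
      (hXm.pow_const _).aestronglyMeasurable (ae_of_all _ fun p => ?_))).symm
    rw [Real.norm_eq_abs, abs_pow, abs_of_nonneg (hX0 p)]
    exact pow_le_one₀ (hX0 p) ((hXq p).trans hq1.le)
  unfold logMom
  rw [← hc, tsum_congr hterm, hsum.tsum_eq, integral_neg, sub_neg_eq_add]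
  have hb : ∀ p, |Real.log (1 - X p)| ≤ -Real.log (1 - q) := fun p => by
    have h1 : 0 < 1 - X p := by linarith [hXq p]
    rw [abs_of_nonpos (Real.log_nonpos h1.le (by linarith [hX0 p]))]
    exact neg_le_neg (Real.log_le_log (by linarith) (by linarith [hXq p]))
  have hi : Integrable (fun p => Real.log (1 - X p)) P :=
    (integrable_const _).mono' ((measurable_const.sub hXm).log).aestronglyMeasurable
      (ae_of_all _ hb)
  have hi2 : Integrable (fun p : Dis K M N × (Fin m → Fin N) =>
      logAvg x p.1 fun σ => W fun i => σ (p.2 i)) P :=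
    ((integrable_const (Real.log c)).add hi).congr (ae_of_all _ hlog)
  refine Eq.trans ?_ (integral_prod _ hi2)
  rw [← integral_congr_ae (ae_of_all _ hlog), integral_add (integrable_const _) hi]
  simp

end Vale.Agent.P168.ASS
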