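import Vale.Agent.P168.Fin.Model
import Vale.Agent.P168.Fin.ASS.LogZ

/-!
P168: the pieces of the intensities of clauses, their bounds, and mean log-partition functions.
-/

namespace Vale.Agent.P168.ASS

open MeasureTheory ProbabilityTheory Finset

variable {K M N : ℕ}

/-- The law of `k` uniform sites. -/
noncomputable abbrev sites (N k : ℕ) : Measure (Fin k → Fin N) := Measure.pi fun _ => unif N

/-- The law of the Gaussian marks of `k` positions. -/
noncomputable abbrev gaussMarks (k : ℕ) : Measure (Finset (Fin k) → ℝ) :=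
  Measure.pi fun _ => gaussianReal 0 1

instance isProbabilityMeasure_unif [NeZero N] : IsProbabilityMeasure (unif N) := ⟨by
  simp [unif, ENNReal.inv_mul_cancel (Nat.cast_ne_zero.2 (NeZero.ne N))]⟩

/-- The main clauses. -/
noncomputable def mainLaw (K M N : ℕ) (μ : Measure (Table K)) : Measure (Mark K M N) :=
  (μ.prod (sites N K)).map Sum.inl

/-- The perturbing clauses of one species. -/
noncomputable def pertLaw (K : ℕ) {M : ℕ} (N : ℕ) (i : Fin M) : Measure (Mark K M N) :=
  ((sites N (ar i)).prod (gaussMarks (ar i))).map fun g => Sum.inr ⟨i, g⟩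

/-- The intensity with a given mean number of main clauses. -/
noncomputable def lawWith (M N : ℕ) (c : ℝ) (μ : Measure (Table K)) : Measure (Mark K M N) :=
  ENNReal.ofReal c • mainLaw K M N μ + ∑ i : Fin M, ENNReal.ofReal (sN N) • pertLaw K N i

lemma markLaw_eq (lam : ℝ) (μ : Measure (Table K)) :
    markLaw M N lam μ = lawWith M N (mainMean lam K N) μ := rfl

lemma measurable_mainInj : Measurable (Sum.inl : Table K × (Fin K → Fin N) → Mark K M N) :=
  measurable_inl

lemma measurable_pertInj (i : Fin M) :
    Measurable fun g : PertMark N i => (Sum.inr ⟨i, g⟩ : Mark K M N) :=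
  measurable_inr.comp (measurableEmbedding_sigmaMk (β := fun i : Fin M => PertMark N i) i).measurable

section

variable (μ : Measure (Table K)) [IsFiniteMeasure μ] [NeZero N]

instance : IsFiniteMeasure (mainLaw K M N μ) := by unfold mainLaw; infer_instance

instance (i : Fin M) : IsProbabilityMeasure (pertLaw K N i) :=
  Measure.isProbabilityMeasure_map (measurable_pertInj i).aemeasurable

instance [IsProbabilityMeasure μ] : IsProbabilityMeasure (mainLaw K M N μ) :=
  Measure.isProbabilityMeasure_map measurable_mainInj.aemeasurable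

lemma isFiniteMeasure_smul_ofReal {α : Type} [MeasurableSpace α] (ν : Measure α) [IsFiniteMeasure ν]
    (c : ℝ) : IsFiniteMeasure (ENNReal.ofReal c • ν) :=
  ⟨by
    rw [Measure.smul_apply, smul_eq_mul]
    exact ENNReal.mul_lt_top ENNReal.ofReal_lt_top (measure_lt_top _ _)⟩

lemma isFiniteMeasure_sum {α ι : Type} [MeasurableSpace α] (s : Finset ι) (ν : ι → Measure α)
    (h : ∀ i, IsFiniteMeasure (ν i)) : IsFiniteMeasure (∑ i ∈ s, ν i) :=
  ⟨by
    rw [Measure.finsetSum_apply]
    exact ENNReal.sum_lt_top.2 fun i _ => measure_lt_top _ _⟩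

instance (c : ℝ) : IsFiniteMeasure (lawWith M N c μ) := by
  have := isFiniteMeasure_sum (univ : Finset (Fin M))
    (fun i => ENNReal.ofReal (sN N) • pertLaw K N i) fun i => isFiniteMeasure_smul_ofReal _ _
  have := isFiniteMeasure_smul_ofReal (mainLaw K M N μ) c
  unfold lawWith; infer_instance

end

/-- The largest size of a clause function. -/
def tabBd {k : ℕ} (θ : (Fin k → Bool) → ℝ) : ℝ := ∑ σ, |θ σ|

lemma abs_le_tabBd {k : ℕ} (θ : (Fin k → Bool) → ℝ) (σ : Fin k → Bool) : |θ σ| ≤ tabBd θ :=
  single_le_sum (f := fun σ => |θ σ|) (fun _ _ => abs_nonneg _) (mem_univ σ)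

lemma tabBd_nonneg {k : ℕ} (θ : (Fin k → Bool) → ℝ) : 0 ≤ tabBd θ :=
  sum_nonneg fun _ _ => abs_nonneg _

lemma measurable_tabBd {k : ℕ} : Measurable (tabBd : ((Fin k → Bool) → ℝ) → ℝ) := by
  unfold tabBd; fun_prop

lemma integrable_tabBd {B0 : ℝ} {μ : Measure (Table K)} {η : Measure ℝ} [IsFiniteMeasure μ]
    (hb : BoundedModel B0 μ η) : Integrable tabBd μ := by
  refine (integrable_const (∑ _σ : Fin K → Bool, B0)).mono' measurable_tabBd.aestronglyMeasurable ?_
  filter_upwards [hb.1] with θ h
  rw [Real.norm_eq_abs, abs_of_nonneg (tabBd_nonneg θ)]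
  exact sum_le_sum fun σ _ => h σ

/-- The size of the marks of a perturbing clause. -/
noncomputable def gBd (i : ℕ) (g : Finset (Fin (ar i)) → ℝ) : ℝ :=
  tabBd (fun σ => ((spcOf i).2 σ : ℝ)) + 2 * ∑ B, (|g B| + 1)

lemma gBd_nonneg (i : ℕ) (g : Finset (Fin (ar i)) → ℝ) : 0 ≤ gBd i g :=
  add_nonneg (tabBd_nonneg _) (mul_nonneg zero_le_two (sum_nonneg fun _ _ => by positivity))

lemma integrable_gBd (i : ℕ) : Integrable (gBd i) (gaussMarks (ar i)) := by
  refine (integrable_const _).add ((integrable_finsetSum _ fun B _ => ?_).const_mul 2)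
  exact ((integrable_eval (i := B) (μ := fun _ : Finset (Fin (ar i)) => gaussianReal 0 1)
    (IsGaussian.integrable_id (μ := gaussianReal 0 1))).abs.add (integrable_const 1))

lemma betaN_nonneg (N : ℕ) : 0 ≤ betaN N := Real.rpow_nonneg N.cast_nonneg _

lemma betaN_le_one (N : ℕ) : betaN N ≤ 1 := by
  rcases N.eq_zero_or_pos with rfl | hN
  · rw [betaN, Nat.cast_zero, Real.zero_rpow (by norm_num)]
    exact zero_le_one
  · exact Real.rpow_le_one_of_one_le_of_nonpos (by exact_mod_cast hN) (by norm_num)

lemma abs_chi {k : ℕ} (B : Finset (Fin k)) (σ : Fin k → Bool) : |chi B σ| = 1 := by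
  rw [chi, abs_prod]
  exact prod_eq_one fun i _ => by cases σ i <;> simp [spin]

/-- A bound on the potential of a clause. -/
noncomputable def markBd : Mark K M N → ℝ
  | Sum.inl cl => tabBd cl.1
  | Sum.inr ⟨i, _, g⟩ => gBd i g

lemma abs_markPot_le {x : Par M} (hx : ∀ b, |x b| ≤ 2) (c : Mark K M N) (σ : Conf N) :
    |markPot x c σ| ≤ markBd c := by
  rcases c with cl | ⟨i, I, g⟩
  · exact abs_le_tabBd cl.1 _
  · have hb := betaN_nonneg N
    have hb1 := betaN_le_one N
    simp only [markPot, markBd, gBd]
    refine (abs_add_le _ _).trans (add_le_add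
      (abs_le_tabBd (fun σ => ((spcOf i).2 σ : ℝ)) _) ?_)
    rw [mul_sum]
    refine (abs_sum_le_sum_abs _ _).trans (sum_le_sum fun B _ => ?_)
    rw [abs_mul, abs_chi, mul_one]
    refine (abs_add_le _ _).trans ?_
    rw [abs_mul, abs_mul, abs_mul, abs_pow, abs_of_nonneg hb, mul_add, mul_one]
    refine add_le_add ?_ ?_
    · calc |x (⟨i, B⟩, false)| * betaN N * |g B| ≤ 2 * 1 * |g B| := by
            gcongr; exact hx _
        _ = 2 * |g B| := by ring
    · calc |x (⟨i, B⟩, true)| * betaN N ^ 2 ≤ 2 * 1 := by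
            gcongr
            · exact hx _
            · exact pow_le_one₀ hb hb1
        _ = 2 := by ring

lemma measurable_markBd : Measurable (markBd : Mark K M N → ℝ) := by
  refine measurable_fun_sum (measurable_tabBd.comp measurable_fst) ?_
  intro s hs
  refine MeasurableSpace.measurableSet_iInf.2 fun i => ?_
  have h : Measurable fun q : PertMark N (i : ℕ) => gBd i q.2 := by
    unfold gBd; fun_prop
  exact h hs

lemma measurable_markPot (σ : Conf N) :
    Measurable fun q : Par M × Mark K M N => markPot q.1 q.2 σ := by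
  refine measurable_prod_sum ?_ (measurable_prod_sigma fun i => ?_)
  · have h : Measurable fun cl : Table K × (Fin K → Fin N) => cl.1 fun j => σ (cl.2 j) :=
      measurable_from_prod_countable_left fun I => measurable_pi_apply (fun j => σ (I j))
    exact h.comp measurable_snd
  · show Measurable fun q : Par M × PertMark N i => ((spcOf i).2 (fun p => σ (q.2.1 p)) : ℝ) +
      ∑ B, (q.1 (⟨i, B⟩, false) * betaN N * q.2.2 B + q.1 (⟨i, B⟩, true) * betaN N ^ 2) *
        chi B fun p => σ (q.2.1 p)
    have h1 : Measurable fun I : Fin (ar i) → Fin N => ((spcOf i).2 (fun p => σ (I p)) : ℝ) :=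
      Measurable.of_discrete
    have h2 : ∀ B, Measurable fun I : Fin (ar i) → Fin N => chi B fun p => σ (I p) :=
      fun B => Measurable.of_discrete
    fun_prop

lemma measurable_markPot' (x : Par M) (σ : Conf N) :
    Measurable fun c : Mark K M N => markPot x c σ :=
  (measurable_markPot σ).comp measurable_prodMk_left

section

variable {B0 : ℝ} {μ : Measure (Table K)} {η : Measure ℝ} [IsProbabilityMeasure μ]
  [IsProbabilityMeasure η] [NeZero N]

omit [IsProbabilityMeasure η] in
lemma integrable_markBd_main (hb : BoundedModel B0 μ η) :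
    Integrable (markBd : Mark K M N → ℝ) (mainLaw K M N μ) :=
  (integrable_map_measure measurable_markBd.aestronglyMeasurable
    measurable_mainInj.aemeasurable).2 ((integrable_tabBd hb).comp_fst _)

lemma integral_markBd_main :
    ∫ c, markBd c ∂mainLaw K M N μ = ∫ θ, tabBd θ ∂μ := by
  rw [mainLaw, integral_map measurable_mainInj.aemeasurable measurable_markBd.aestronglyMeasurable]
  exact (integral_fun_fst (μ := μ) (ν := sites N K) tabBd).trans (by simp)

lemma integrable_markBd_pert (i : Fin M) :
    Integrable (markBd : Mark K M N → ℝ) (pertLaw K N i) :=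
  (integrable_map_measure measurable_markBd.aestronglyMeasurable
    (measurable_pertInj i).aemeasurable).2 ((integrable_gBd i).comp_snd _)

lemma integral_markBd_pert (i : Fin M) :
    ∫ c, markBd c ∂pertLaw K N i = ∫ g, gBd i g ∂gaussMarks (ar i) := by
  rw [pertLaw, integral_map (measurable_pertInj i).aemeasurable
    measurable_markBd.aestronglyMeasurable]
  exact (integral_fun_snd (μ := sites N (ar i)) (ν := gaussMarks (ar i)) (gBd i)).trans (by simp)

omit [IsProbabilityMeasure η] in
lemma integrable_markBd_lawWith (hb : BoundedModel B0 μ η) (c : ℝ) :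
    Integrable (markBd : Mark K M N → ℝ) (lawWith M N c μ) := by
  refine ((integrable_markBd_main hb).smul_measure ENNReal.ofReal_ne_top).add_measure ?_
  exact integrable_finsetSum_measure.2 fun i _ =>
    (integrable_markBd_pert i).smul_measure ENNReal.ofReal_ne_top

end

/-- The energy of the fields. -/
def field (h : Fin N → ℝ) (σ : Conf N) : ℝ := ∑ i, h i * spin (σ i)

lemma measurable_field (σ : Conf N) : Measurable fun h : Fin N → ℝ => field h σ := by
  unfold field; fun_prop

lemma abs_spin (s : Bool) : |spin s| = 1 := by cases s <;> simp [spin]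

lemma ae_field_le {B0 : ℝ} {η : Measure ℝ} [IsProbabilityMeasure η]
    (hb : ∀ᵐ h ∂η, |h| ≤ B0) :
    ∀ᵐ h ∂Measure.pi (fun _ : Fin N => η), ∀ σ, |field h σ| ≤ (N : ℝ) * B0 := by
  have h1 : ∀ i : Fin N, ∀ᵐ h ∂Measure.pi (fun _ : Fin N => η), |h i| ≤ B0 := fun i =>
    (Measure.tendsto_eval_ae_ae (μ := fun _ : Fin N => η) (i := i)).eventually hb
  filter_upwards [ae_all_iff.2 h1] with h hh σ
  calc |field h σ| ≤ ∑ i, |h i * spin (σ i)| := abs_sum_le_sum_abs _ _
    _ ≤ ∑ _i : Fin N, B0 := sum_le_sum fun i _ => by rw [abs_mul, abs_spin, mul_one]; exact hh i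
    _ = (N : ℝ) * B0 := by simp

/-- The mean log-partition function over the fields. -/
noncomputable def meanLz (η : Measure ℝ) (x : Par M) (a : Cfg (Mark K M N)) : ℝ :=
  avgLz (markPot x) field (Measure.pi fun _ : Fin N => η) a

/-- The mean log-partition function with a given mean number of main clauses. -/
noncomputable def press (μ : Measure (Table K)) (η : Measure ℝ) (N : ℕ) (c : ℝ) (x : Par M) : ℝ :=
  ∫ a, meanLz η x a ∂pp (lawWith M N c μ)

end Vale.Agent.P168.ASS
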