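import Vale.Agent.P168.Fin.ASS.Compare

/-!
P168: one more site adds the cavity functional, up to `C N ^ (-1/5)`.
-/

namespace Vale.Agent.P168.ASS

open MeasureTheory ProbabilityTheory Finset

variable {K M N : ℕ} {B0 lam : ℝ} {μ : Measure (Table K)} {η : Measure ℝ}
  [IsProbabilityMeasure μ] [IsProbabilityMeasure η]

/-- The total mean size of the perturbing marks. -/
noncomputable def pertSize (M : ℕ) : ℝ := ∑ i : Fin M, ∫ g, gBd i g ∂gaussMarks (ar i)

lemma integral_gBd_nonneg (i : ℕ) : 0 ≤ ∫ g, gBd i g ∂gaussMarks (ar i) :=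
  integral_nonneg (gBd_nonneg i)

/-- The mean log-partition function is Lipschitz in the mean number of main clauses. -/
lemma abs_press_sub_le [NeZero N] (hb : BoundedModel B0 μ η) {x : Par M} (hx : ∀ b, |x b| ≤ 2)
    {c c' : ℝ} (hc : 0 ≤ c) (hc' : 0 ≤ c') :
    |press μ η N c x - press μ η N c' x| ≤ |c - c'| * ∫ θ, tabBd θ ∂μ := by
  wlog h : c' ≤ c generalizing c c'
  · rw [abs_sub_comm, abs_sub_comm c]
    exact this hc' hc (le_of_not_ge h)
  have e : lawWith M N c μ = lawWith M N c' μ + ENNReal.ofReal (c - c') • mainLaw K M N μ := by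
    unfold lawWith
    conv_lhs => rw [show c = c' + (c - c') by ring, ENNReal.ofReal_add hc' (sub_nonneg.2 h), add_smul]
    abel
  have := isFiniteMeasure_smul_ofReal (mainLaw K M N μ) (c - c')
  rw [press, press, e]
  refine (abs_sub_le_coupling _ _
    (measurable_avgLz (measurable_markPot' x) measurable_field) avgLz_symm
    (integrable_markBd_lawWith hb c') ((integrable_markBd_main hb).smul_measure
      ENNReal.ofReal_ne_top)
    (avgLz_incr (abs_markPot_le hx) measurable_field (ae_field_le hb.2))).trans_eq ?_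
  rw [integral_smul_measure, ENNReal.toReal_ofReal (sub_nonneg.2 h), integral_markBd_main,
    smul_eq_mul, abs_of_nonneg (sub_nonneg.2 h)]

/-- The system of `N + 1` sites and the common system with a cavity site. -/
lemma abs_press_succ_sub (hN : 1 ≤ N) (hK : 1 ≤ K) (hl : 0 ≤ lam) (hb : BoundedModel B0 μ η)
    {x : Par M} (hx : ∀ b, |x b| ≤ 2) :
    |press μ η (N + 1) (lam * (N + 1 : ℕ)) x - siteVal lam μ η N x| ≤
      (2 * lam * (K : ℝ) ^ 2 * ∫ θ, tabBd θ ∂μ +
        ∑ i : Fin M, (4 + 3 * (ar i : ℝ)) * ∫ g, gBd i g ∂gaussMarks (ar i)) *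
        (N : ℝ) ^ (-(1 / 5) : ℝ) := by
  have : NeZero N := ⟨by omega⟩
  have : NeZero K := ⟨by omega⟩
  set A0 := ∫ θ, tabBd θ ∂μ
  have hA0 : 0 ≤ A0 := integral_nonneg tabBd_nonneg
  set Q : Fin M → ℝ := fun i => ∫ g, gBd i g ∂gaussMarks (ar i)
  have hQ : ∀ i, 0 ≤ Q i := fun i => integral_gBd_nonneg _
  have hθ := integrable_tabBd hb
  set δ := (N : ℝ) ^ (-(1 / 5) : ℝ)
  obtain ⟨h0, h1, ht⟩ := frac_facts N
  set u := (N : ℝ) / (N + 1) with hu
  set c := lam * ((N + 1 : ℕ) : ℝ) with hcdef
  have hc : 0 ≤ c := by positivity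
  set d1 := c * qNew N K with hd1
  have hd1' : d1 = lam * K * u ^ (K - 1) := by
    simp only [hd1, hcdef, qNew, Nat.cast_succ, ← hu]
    field_simp
  have hd10 : 0 ≤ d1 := mul_nonneg hc (qNew_nonneg N K)
  have hd1K : d1 ≤ K * lam := by
    rw [hd1']
    calc lam * K * u ^ (K - 1) ≤ lam * K * 1 :=
          mul_le_mul_of_nonneg_left (pow_le_one₀ h0 h1) (by positivity)
      _ = K * lam := by ring
  have hmain : c * qOld N K = mainMean lam K N := by
    simp only [hcdef, qOld, mainMean, Nat.cast_succ]
  obtain ⟨rm, hrm, hem, him, him'⟩ := exists_split_main (M := M) (N := N) hθ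
  choose rp hrp hep hip hip' using fun i : Fin M => exists_split_pert (K := K) (N := N) i
  set s := sN N
  set s' := sN (N + 1)
  obtain ⟨hs1, hs2⟩ := sN_succ_sub_le hN
  have hs : 0 ≤ s := Real.rpow_nonneg N.cast_nonneg _
  have hs' : 0 ≤ s' := by linarith
  set p : Fin M → ℝ := fun i => s' * qOld N (ar i)
  have hp : ∀ i, 0 ≤ p i := fun i => mul_nonneg hs' (qOld_nonneg _ _)
  set O := oldMain K M N μ
  set W := newMain K M N μ
  set P : Fin M → Measure (Mark K M (N + 1)) := oldPert K N
  let ν0 : Measure (Mark K M (N + 1)) := ENNReal.ofReal (mainMean lam K N) • O +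
    ENNReal.ofReal d1 • W + ∑ i : Fin M, ENNReal.ofReal (min (p i) s) • P i
  let a : Measure (Mark K M (N + 1)) := ENNReal.ofReal c • rm +
    ∑ i : Fin M, (ENNReal.ofReal (p i - min (p i) s) • P i + ENNReal.ofReal s' • rp i)
  let b : Measure (Mark K M (N + 1)) := ENNReal.ofReal (K * lam - d1) • W +
    ∑ i : Fin M, ENNReal.ofReal (s - min (p i) s) • P i
  have efull : lawWith M (N + 1) c μ = ν0 + a := by
    have e1 : ∀ i : Fin M, ENNReal.ofReal (sN (N + 1)) • pertLaw K (N + 1) i =
        ENNReal.ofReal (min (p i) s) • P i +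
          (ENNReal.ofReal (p i - min (p i) s) • P i + ENNReal.ofReal s' • rp i) := fun i => by
      rw [hep i, smul_add, smul_smul, ← ENNReal.ofReal_mul hs', ← add_assoc, ← add_smul,
        ← ENNReal.ofReal_add (le_min (hp i) hs) (sub_nonneg.2 (min_le_left _ _)),
        add_sub_cancel]
    rw [lawWith, hem, sum_congr rfl fun i _ => e1 i, sum_add_distrib]
    simp only [smul_add, smul_smul, ← ENNReal.ofReal_mul hc, hmain, ← hd1, ν0, a]
    abel
  have etgt : (joinLaw (M := M) lam μ (K * lam) (siteLaw K N μ)).map emb = ν0 + b := by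
    have e1 : ∀ i : Fin M, ENNReal.ofReal s • P i =
        ENNReal.ofReal (min (p i) s) • P i + ENNReal.ofReal (s - min (p i) s) • P i := fun i => by
      rw [← add_smul, ← ENNReal.ofReal_add (le_min (hp i) hs) (sub_nonneg.2 (min_le_right _ _)),
        add_sub_cancel]
    rw [map_joinLaw, sum_congr rfl fun i _ => e1 i, sum_add_distrib,
      show ENNReal.ofReal ((K : ℝ) * lam) = ENNReal.ofReal d1 + ENNReal.ofReal (K * lam - d1) by
        rw [← ENNReal.ofReal_add hd10 (sub_nonneg.2 hd1K), add_sub_cancel], add_smul]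
    simp only [ν0, b]
    abel
  have fin : ∀ (r : ℝ) (ν : Measure (Mark K M (N + 1))), IsFiniteMeasure ν →
      IsFiniteMeasure (ENNReal.ofReal r • ν) := fun r ν _ => isFiniteMeasure_smul_ofReal ν r
  have : IsFiniteMeasure ν0 := by
    have := fin (mainMean lam K N) O inferInstance
    have := fin d1 W inferInstance
    have := isFiniteMeasure_sum univ (fun i => ENNReal.ofReal (min (p i) s) • P i)
      fun i => fin _ (oldPert K N i) inferInstance
    infer_instance
  have : IsFiniteMeasure a := by
    have := fin c rm hrm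
    have := isFiniteMeasure_sum univ
      (fun i => ENNReal.ofReal (p i - min (p i) s) • P i + ENNReal.ofReal s' • rp i) fun i => by
        have := fin (p i - min (p i) s) (oldPert K N i) inferInstance
        have := fin s' _ (hrp i)
        infer_instance
    infer_instance
  have : IsFiniteMeasure b := by
    have := fin (K * lam - d1) W inferInstance
    have := isFiniteMeasure_sum univ (fun i => ENNReal.ofReal (s - min (p i) s) • P i)
      fun i => fin _ (oldPert K N i) inferInstance
    infer_instance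
  obtain ⟨hiO, hiW, hvO, hvW⟩ := integrable_bd_main (M := M) (N := N) hθ
  have hP := fun i : Fin M => integrable_bd_pert (K := K) (N := N) i
  have hi0 : Integrable markBd ν0 :=
    ((hiO.smul_measure ENNReal.ofReal_ne_top).add_measure
      (hiW.smul_measure ENNReal.ofReal_ne_top)).add_measure
      (integrable_finsetSum_measure.2 fun i _ => (hP i).1.smul_measure ENNReal.ofReal_ne_top)
  have hia1 : ∀ i, Integrable markBd
      (ENNReal.ofReal (p i - min (p i) s) • P i + ENNReal.ofReal s' • rp i) := fun i =>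
    ((hP i).1.smul_measure ENNReal.ofReal_ne_top).add_measure
      ((hip i).smul_measure ENNReal.ofReal_ne_top)
  have hia : Integrable markBd a :=
    (him.smul_measure ENNReal.ofReal_ne_top).add_measure
      (integrable_finsetSum_measure.2 fun i _ => hia1 i)
  have hib : Integrable markBd b :=
    (hiW.smul_measure ENNReal.ofReal_ne_top).add_measure
      (integrable_finsetSum_measure.2 fun i _ => (hP i).1.smul_measure ENNReal.ofReal_ne_top)
  have va : ∫ z, markBd z ∂a = c * ((1 - qOld N K - qNew N K) * A0) +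
      ∑ i, ((p i - min (p i) s) * Q i + s' * ((1 - qOld N (ar i)) * Q i)) := by
    rw [integral_add_measure (him.smul_measure ENNReal.ofReal_ne_top)
      (integrable_finsetSum_measure.2 fun i _ => hia1 i), integral_finsetSum_measure fun i _ => hia1 i]
    congr 1
    · rw [integral_smul_measure, him', ENNReal.toReal_ofReal hc, smul_eq_mul]
    · refine sum_congr rfl fun i _ => ?_
      rw [integral_add_measure ((hP i).1.smul_measure ENNReal.ofReal_ne_top)
        ((hip i).smul_measure ENNReal.ofReal_ne_top), integral_smul_measure, integral_smul_measure,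
        ENNReal.toReal_ofReal (sub_nonneg.2 (min_le_left _ _)), ENNReal.toReal_ofReal hs',
        (hP i).2, hip' i]
      rfl
  have vb : ∫ z, markBd z ∂b = (K * lam - d1) * A0 + ∑ i, (s - min (p i) s) * Q i := by
    rw [integral_add_measure (hiW.smul_measure ENNReal.ofReal_ne_top)
      (integrable_finsetSum_measure.2 fun i _ => (hP i).1.smul_measure ENNReal.ofReal_ne_top),
      integral_finsetSum_measure fun i _ => (hP i).1.smul_measure ENNReal.ofReal_ne_top]
    congr 1
    · rw [integral_smul_measure, hvW, ENNReal.toReal_ofReal (sub_nonneg.2 hd1K), smul_eq_mul]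
    · refine sum_congr rfl fun i _ => ?_
      rw [integral_smul_measure, ENNReal.toReal_ofReal (sub_nonneg.2 (min_le_right _ _)), (hP i).2]
      rfl
  have hE : |∫ z, meanLz η x z ∂pp (ν0 + a) - ∫ z, meanLz η x z ∂pp (ν0 + b)| ≤
      ∫ z, markBd z ∂a + ∫ z, markBd z ∂b :=
    abs_integral_avgLz_sub (measurable_markPot' x) (abs_markPot_le hx) measurable_field
      (ae_field_le hb.2) hi0 hia hib
  set J := joinLaw (M := M) lam μ (K * lam) (siteLaw K N μ) with hJ
  have : IsFiniteMeasure (markLaw M N lam μ : Measure (Mark K M N)) := by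
    rw [markLaw_eq lam μ]; infer_instance
  have : IsFiniteMeasure (ENNReal.ofReal ((K : ℝ) * lam) • siteLaw K N μ) :=
    isFiniteMeasure_smul_ofReal _ _
  have : IsFiniteMeasure J := by rw [hJ]; unfold joinLaw; infer_instance
  have := isProbabilityMeasure_pp J
  have hF := measurable_avgLz (π := Measure.pi fun _ : Fin (N + 1) => η)
    (measurable_markPot' (K := K) (N := N + 1) x) measurable_field
  have emap : ∫ z, meanLz η x z ∂pp (ν0 + b) = ∫ z, meanLz η x (cmap emb z) ∂pp J := by
    rw [← etgt, pp_map _ measurable_emb]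
    exact integral_map (measurable_cmap measurable_emb).aemeasurable hF.aestronglyMeasurable
  let Δ : Mark K M N ⊕ SiteMark K N → ℝ :=
    Sum.elim (fun d => 2 * |betaN (N + 1) - betaN N| * pertBd d) fun _ => 0
  have hΔm : Measurable Δ :=
    measurable_fun_sum (measurable_pertBd.const_mul _) measurable_const
  have hmark : Integrable (pertBd : Mark K M N → ℝ) (markLaw M N lam μ) := by
    rw [markLaw_eq lam μ]
    exact (integrable_markBd_lawWith hb _).mono' measurable_pertBd.aestronglyMeasurable
      (ae_of_all _ pertBd_le)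
  have hJl : Integrable Δ ((markLaw M N lam μ).map Sum.inl) :=
    (integrable_map_measure hΔm.aestronglyMeasurable measurable_inl.aemeasurable).2
      (hmark.const_mul _)
  have hJr : Integrable Δ ((ENNReal.ofReal ((K : ℝ) * lam) • siteLaw K N μ).map Sum.inr) :=
    (integrable_map_measure hΔm.aestronglyMeasurable measurable_inr.aemeasurable).2
      (integrable_zero _ _ _)
  have hΔi : Integrable Δ J := hJl.add_measure hJr
  have hmainP : ∫ z, pertBd z ∂markLaw M N lam μ = ∑ i : Fin M, s * Q i := by
    have hib1 : Integrable (pertBd : Mark K M N → ℝ) (mainLaw K M N μ) :=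
      (integrable_markBd_main hb).mono' measurable_pertBd.aestronglyMeasurable (ae_of_all _ pertBd_le)
    have hib2 : ∀ i, Integrable (pertBd : Mark K M N → ℝ) (pertLaw K N i) := fun i =>
      (integrable_markBd_pert i).mono' measurable_pertBd.aestronglyMeasurable
        (ae_of_all _ pertBd_le)
    have hz : ∫ z, pertBd z ∂mainLaw K M N μ = 0 := by
      rw [mainLaw,
        integral_map measurable_mainInj.aemeasurable measurable_pertBd.aestronglyMeasurable]
      simp [pertBd]
    rw [markLaw_eq, lawWith, integral_add_measure (hib1.smul_measure ENNReal.ofReal_ne_top)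
        (integrable_finsetSum_measure.2 fun i _ => (hib2 i).smul_measure ENNReal.ofReal_ne_top),
      integral_finsetSum_measure fun i _ => (hib2 i).smul_measure ENNReal.ofReal_ne_top,
      integral_smul_measure, hz, smul_zero, zero_add]
    refine sum_congr rfl fun i _ => ?_
    rw [integral_smul_measure, ENNReal.toReal_ofReal hs, smul_eq_mul, pertLaw,
      integral_map (measurable_pertInj i).aemeasurable measurable_pertBd.aestronglyMeasurable]
    exact congrArg (s * ·)
      ((integral_fun_snd (μ := sites N (ar i)) (ν := gaussMarks (ar i)) (gBd i)).trans (by simp [Q]))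
  have hΔint : ∫ z, Cfg.sum Δ z ∂pp J =
      2 * |betaN (N + 1) - betaN N| * ∑ i : Fin M, s * Q i := by
    rw [(integral_sum J hΔi).2, hJ, joinLaw, integral_add_measure hJl hJr,
      integral_map measurable_inl.aemeasurable hΔm.aestronglyMeasurable,
      integral_map measurable_inr.aemeasurable hΔm.aestronglyMeasurable]
    simp only [Δ, Sum.elim_inl, Sum.elim_inr, integral_zero, add_zero, integral_const_mul, hmainP]
  have hS : |∫ z, meanLz η x (cmap emb z) ∂pp J - siteVal lam μ η N x| ≤
      ∫ z, Cfg.sum Δ z ∂pp J := by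
    have hi1 : Integrable (fun z => meanLz η x (cmap emb z)) (pp J) := by
      have h := integrable_avgLz (π := Measure.pi fun _ : Fin (N + 1) => η) (ν := ν0 + b)
        (measurable_markPot' x) (abs_markPot_le hx) measurable_field (ae_field_le hb.2)
        (hi0.add_measure hib)
      rw [← etgt, pp_map _ measurable_emb] at h
      exact h.comp_measurable (measurable_cmap measurable_emb)
    have hi2 : Integrable (avgLz (joinPot (markPot x) sitePot) (joinBase siteBase)
        ((Measure.pi fun _ : Fin N => η).prod η)) (pp J) := by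
      refine ((hi1.norm.add (integral_sum J hΔi).1)).mono'
        (measurable_avgLz (measurable_joinPot x measurable_sitePot) fun q =>
          ((measurable_field q.1).comp measurable_fst).add
            (measurable_snd.mul_const _)).aestronglyMeasurable (ae_of_all _ fun z => ?_)
      have h := abs_meanLz_emb_sub hb.2 hx z
      simp only [Real.norm_eq_abs, Pi.add_apply]
      rw [abs_sub_le_iff] at h
      rw [abs_le]
      constructor <;> linarith [h.1, h.2, le_abs_self (meanLz η x (cmap emb z)),
        neg_abs_le (meanLz η x (cmap emb z))]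
    unfold siteVal
    rw [← hJ, ← integral_sub hi1 hi2]
    exact abs_integral_le_integral_abs.trans (integral_mono (hi1.sub hi2).abs
      (integral_sum J hΔi).1 fun z => abs_meanLz_emb_sub hb.2 hx z)
  have hfull : press μ η (N + 1) c x = ∫ z, meanLz η x z ∂pp (ν0 + a) := by rw [press, efull]
  rw [hfull]
  rw [← emap] at hS
  refine (abs_sub_le _ (∫ z, meanLz η x z ∂pp (ν0 + b)) _).trans
    ((add_le_add hE hS).trans ?_)
  rw [va, vb, hΔint]
  have e2 : c * (1 - qOld N K - qNew N K) ≤ lam * (K : ℝ) ^ 2 * δ := by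
    rw [hcdef, Nat.cast_succ]
    calc lam * ((N : ℝ) + 1) * (1 - qOld N K - qNew N K)
        = lam * (((N : ℝ) + 1) * (1 - qOld N K - qNew N K)) := mul_assoc _ _ _
      _ ≤ lam * ((K : ℝ) ^ 2 / (N + 1)) := mul_le_mul_of_nonneg_left (rest_mass_le K N) hl
      _ = lam * (K : ℝ) ^ 2 * (1 / ((N : ℝ) + 1)) := by ring
      _ ≤ _ := mul_le_mul_of_nonneg_left (inv_succ_le hN) (by positivity)
  have e3 : (K : ℝ) * lam - d1 ≤ lam * (K : ℝ) ^ 2 * δ := by
    have h := one_sub_pow_le (K - 1) h0 h1
    have hKK : ((K - 1 : ℕ) : ℝ) ≤ K := Nat.cast_le.2 (Nat.sub_le K 1)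
    rw [hd1']
    calc (K : ℝ) * lam - lam * K * u ^ (K - 1) = lam * K * (1 - u ^ (K - 1)) := by ring
      _ ≤ lam * K * (K * δ) := by
          refine mul_le_mul_of_nonneg_left (h.trans ?_) (by positivity)
          rw [ht]
          exact mul_le_mul hKK (inv_succ_le hN) (by positivity) (by positivity)
      _ = _ := by ring
  have e4 : ∀ i : Fin M, s' * (1 - qOld N (ar i)) ≤ (ar i : ℝ) * δ := fun i => by
    calc s' * (1 - qOld N (ar i)) ≤ s' * ((ar i : ℝ) * (1 / ((N : ℝ) + 1))) := by
          refine mul_le_mul_of_nonneg_left ?_ hs'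
          rw [← ht]; exact one_sub_pow_le _ h0 h1
      _ = (ar i : ℝ) * (s' / ((N : ℝ) + 1)) := by ring
      _ ≤ _ := mul_le_mul_of_nonneg_left (sN_succ_div_le hN) (Nat.cast_nonneg _)
  have e5 := sN_mul_beta_sub_le hN
  have e6 : ∀ i : Fin M, (p i - min (p i) s) + (s - min (p i) s) ≤ δ + (ar i : ℝ) * δ := fun i => by
    have he : p i = s' - s' * (1 - qOld N (ar i)) := by ring
    have := e4 i
    have h4 : 0 ≤ s' * (1 - qOld N (ar i)) :=
      mul_nonneg hs' (sub_nonneg.2 (qOld_le_one _ _))
    rcases min_choice (p i) s with h | h <;> rw [h] <;> linarith [min_le_left (p i) s,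
      min_le_right (p i) s]
  have hsum : ∑ i, ((p i - min (p i) s) * Q i + s' * ((1 - qOld N (ar i)) * Q i)) +
      ∑ i, (s - min (p i) s) * Q i + 2 * |betaN (N + 1) - betaN N| * ∑ i : Fin M, s * Q i ≤
      (∑ i : Fin M, (4 + 3 * (ar i : ℝ)) * Q i) * δ := by
    rw [mul_sum, ← sum_add_distrib, ← sum_add_distrib, sum_mul]
    refine sum_le_sum fun i _ => ?_
    have hδ : 0 ≤ δ := by positivity
    have h5 : s * |betaN (N + 1) - betaN N| * Q i ≤ δ * Q i :=
      mul_le_mul_of_nonneg_right e5 (hQ i)
    have h4 := mul_le_mul_of_nonneg_right (e4 i) (hQ i)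
    have h6 := mul_le_mul_of_nonneg_right (e6 i) (hQ i)
    nlinarith [mul_nonneg (mul_nonneg (Nat.cast_nonneg (α := ℝ) (ar i)) hδ) (hQ i),
      mul_nonneg hδ (hQ i)]
  have m2 := mul_le_mul_of_nonneg_right e2 hA0
  have m3 := mul_le_mul_of_nonneg_right e3 hA0
  linarith

/-- One more site adds the cavity functional. -/
theorem exists_increment_bound (hK : 1 ≤ K) (hl : 0 ≤ lam) (hb : BoundedModel B0 μ η) (M : ℕ) :
    ∃ C, ∀ N, 1 ≤ N → ∀ x : Par M, (∀ b, |x b| ≤ 2) →
      |press μ η (N + 1) (lam * (N + 1 : ℕ)) x - press μ η N (lam * N) x -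
          cavityVal lam μ η (stageCol lam μ η N x)| ≤ C * (N : ℝ) ^ (-(1 / 5) : ℝ) := by
  set A0 := ∫ θ, tabBd θ ∂μ
  refine ⟨2 * lam * (K : ℝ) ^ 2 * A0 + (∑ i : Fin M, (4 + 3 * (ar i : ℝ)) *
    ∫ g, gBd i g ∂gaussMarks (ar i)) + lam * (K : ℝ) ^ 2 * A0, fun N hN x hx => ?_⟩
  have : NeZero N := ⟨by omega⟩
  have h1 := abs_press_succ_sub hN hK hl hb hx
  have hK1 : (1 : ℝ) ≤ K := by exact_mod_cast hK
  have h2 := abs_press_sub_le (N := N) hb hx (c := lam * N)
    (c' := mainMean lam K N + ((K : ℝ) - 1) * lam) (by positivity)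
    (add_nonneg (by unfold mainMean; positivity) (mul_nonneg (by linarith) hl))
  have hA0 : 0 ≤ A0 := integral_nonneg tabBd_nonneg
  have h3 : |lam * (N : ℝ) - (mainMean lam K N + ((K : ℝ) - 1) * lam)| ≤
      lam * (K : ℝ) ^ 2 * (N : ℝ) ^ (-(1 / 5) : ℝ) := by
    refine (abs_mainMean_sub hl K N).trans ?_
    rw [div_eq_mul_one_div]
    exact mul_le_mul_of_nonneg_left (inv_succ_le hN) (by positivity)
  have h4 := mul_le_mul_of_nonneg_right h3 hA0
  rw [cavityVal_eq hK hl hb hx, edgeVal]
  rw [abs_le] at h1 h2 ⊢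
  constructor <;> linarith [h1.1, h1.2, h2.1, h2.2]

end Vale.Agent.P168.ASS
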